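import Vale.Agent.P042.H685.Holder

/-! Pinned families: the densities of the pinned (unnormalised) measure form again a family, and
the tensors of `g` with the legs in `A` frozen are signed sums of the tensors of the pinned
families. -/

set_option linter.unusedSectionVars false
set_option linter.unusedDecidableInType false

namespace Vale.Agent.P042.H685

open Finset Vale.Agent.P042.H779 Vale.Agent.P042.H779.Ab

variable {ι : Type*} [Fintype ι] [DecidableEq ι] {V : ι → Type*} [∀ i, Fintype (V i)]
  [∀ i, DecidableEq (V i)] {w : ∀ i, V i → ℝ} {g : Finset ι → (∀ i, V i) → ℝ} {m : ℝ}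

/-- `x` overwritten by `u` on `A` -/
def ov (A : Finset ι) (u x : ∀ i, V i) : ∀ i, V i := fun i => if i ∈ A then u i else x i

lemma ov_mem {A : Finset ι} {i : ι} (h : i ∈ A) (u x : ∀ i, V i) : ov A u x i = u i := if_pos h

lemma ov_notMem {A : Finset ι} {i : ι} (h : i ∉ A) (u x : ∀ i, V i) : ov A u x i = x i := if_neg h

lemma ov_empty (u x : ∀ i, V i) : ov ∅ u x = x := by
  funext i; exact if_neg (notMem_empty i)

/-- densities of the pinned measure `g_A(u) μ^{x_A = u}` -/
def gp (g : Finset ι → (∀ i, V i) → ℝ) (A : Finset ι) (u : ∀ i, V i) (C : Finset ι)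
    (x : ∀ i, V i) : ℝ := g (A ∪ C) (ov A u x)

lemma gp_empty (g : Finset ι → (∀ i, V i) → ℝ) (u : ∀ i, V i) : gp g ∅ u = g := by
  funext C x
  unfold gp
  rw [empty_union, ov_empty]

/-- the pinned family is a family, of mass `g_A(u)` -/
theorem PFam.pin (F : PFam w g m) (A : Finset ι) (u : ∀ i, V i) : PFam w (gp g A u) (g A u) where
  w_nonneg := F.w_nonneg
  w_sum := F.w_sum
  g_nonneg := fun C x => F.g_nonneg _ _
  g_empty := fun x => by
    unfold gp
    rw [union_empty]
    exact F.loc A _ _ fun i hi => ov_mem hi u x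
  loc := by
    intro C x y hxy
    unfold gp
    refine F.loc _ _ _ fun i hi => ?_
    by_cases hA : i ∈ A
    · rw [ov_mem hA, ov_mem hA]
    · rw [ov_notMem hA, ov_notMem hA]
      rcases mem_union.mp hi with h | h
      · exact absurd h hA
      · exact hxy i h
  avg := by
    intro C i hi x
    unfold gp
    by_cases hA : i ∈ A
    · have h1 : A ∪ insert i C = A ∪ C := by
        ext j; simp only [mem_union, mem_insert]
        constructor
        · rintro (h | rfl | h)
          · exact Or.inl h
          · exact Or.inl hA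
          · exact Or.inr h
        · rintro (h | h)
          · exact Or.inl h
          · exact Or.inr (Or.inr h)
      have h2 : ∀ a : V i, ov A u (Function.update x i a) = ov A u x := by
        intro a; funext j
        by_cases hj : j ∈ A
        · rw [ov_mem hj, ov_mem hj]
        · have hji : j ≠ i := fun h => hj (h ▸ hA)
          rw [ov_notMem hj, ov_notMem hj, Function.update_of_ne hji]
      rw [h1, sum_congr rfl fun a _ => by rw [h2 a], ← sum_mul, F.w_sum, one_mul]
    · have h1 : A ∪ insert i C = insert i (A ∪ C) := by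
        ext j; simp only [mem_union, mem_insert]; tauto
      have h2 : ∀ a : V i, ov A u (Function.update x i a) = Function.update (ov A u x) i a := by
        intro a; funext j
        by_cases hji : j = i
        · subst hji; rw [ov_notMem hA, Function.update_self, Function.update_self]
        · rw [Function.update_of_ne hji]
          by_cases hj : j ∈ A
          · rw [ov_mem hj, ov_mem hj]
          · rw [ov_notMem hj, ov_notMem hj, Function.update_of_ne hji]
      have hiAC : i ∉ A ∪ C := by
        rw [mem_union]; rintro (h | h)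
        · exact hA h
        · exact hi h
      rw [h1, sum_congr rfl fun a _ => by rw [h2 a], F.avg (A ∪ C) i hiAC]

/-- The pinned family has no tensors with legs in `A`. -/
lemma hh_gp_eq_zero (g : Finset ι → (∀ i, V i) → ℝ) (A : Finset ι) (u : ∀ i, V i)
    {B : Finset ι} (hB : ¬ Disjoint A B) (x : ∀ i, V i) : hh (gp g A u) B x = 0 := by
  obtain ⟨i, hiA, hiB⟩ := not_disjoint_iff.mp hB
  obtain ⟨B', hB', rfl⟩ : ∃ B', i ∉ B' ∧ B = insert i B' :=
    ⟨B.erase i, notMem_erase i B, (insert_erase hiB).symm⟩
  rw [hh_insert _ hB']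
  refine sum_eq_zero fun C _ => ?_
  have : A ∪ insert i C = A ∪ C := by
    ext j; simp only [mem_union, mem_insert]
    constructor
    · rintro (h | rfl | h)
      · exact Or.inl h
      · exact Or.inl hiA
      · exact Or.inr h
    · rintro (h | h)
      · exact Or.inl h
      · exact Or.inr (Or.inr h)
  unfold gp
  rw [this, sub_self, mul_zero]

/-- The tensor of `g` with the legs in `A` frozen at `u`. -/
lemma hh_frozen {g : Finset ι → (∀ i, V i) → ℝ} (hg : ∀ C, Loc C (g C)) {A D : Finset ι}
    (hAD : Disjoint A D) (u x : ∀ i, V i) :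
    hh g (A ∪ D) (ov A u x)
      = ∑ A' ∈ A.powerset, (-1) ^ (A.card - A'.card) * hh (gp g A' u) D x := by
  unfold hh gp
  simp_rw [mul_sum]
  rw [← sum_product' (f := fun A' C => (-1 : ℝ) ^ (A.card - A'.card)
    * ((-1) ^ (D.card - C.card) * g (A' ∪ C) (ov A' u x)))]
  symm
  refine sum_bij' (fun p _ => p.1 ∪ p.2) (fun E _ => (E ∩ A, E ∩ D)) ?_ ?_ ?_ ?_ ?_
  · rintro ⟨A', C⟩ h
    simp only [mem_product, mem_powerset] at h ⊢
    exact union_subset_union h.1 h.2
  · intro E h
    simp only [mem_product, mem_powerset] at h ⊢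
    exact ⟨inter_subset_right, inter_subset_right⟩
  · rintro ⟨A', C⟩ h
    simp only [mem_product, mem_powerset] at h
    simp only [Prod.mk.injEq]
    constructor
    · ext j
      simp only [mem_inter, mem_union]
      constructor
      · rintro ⟨h1 | h1, h2⟩
        · exact h1
        · exact absurd (h.2 h1) (disjoint_left.mp hAD h2)
      · intro h1; exact ⟨Or.inl h1, h.1 h1⟩
    · ext j
      simp only [mem_inter, mem_union]
      constructor
      · rintro ⟨h1 | h1, h2⟩
        · exact absurd h2 (disjoint_left.mp hAD (h.1 h1))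
        · exact h1
      · intro h1; exact ⟨Or.inr h1, h.2 h1⟩
  · intro E h
    simp only [mem_powerset] at h
    simp only
    rw [← inter_union_distrib_left]
    exact inter_eq_left.mpr h
  · rintro ⟨A', C⟩ h
    simp only [mem_product, mem_powerset] at h
    simp only
    have hd : Disjoint A' C := disjoint_of_subset_left h.1 (disjoint_of_subset_right h.2 hAD)
    rw [card_union_of_disjoint hd, card_union_of_disjoint hAD]
    have h1 := card_le_card h.1
    have h2 := card_le_card h.2
    have h3 : A.card + D.card - (A'.card + C.card) = (A.card - A'.card) + (D.card - C.card) := by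
      omega
    rw [h3, pow_add, mul_assoc]
    congr 2
    refine hg _ _ _ fun i hi => ?_
    rcases mem_union.mp hi with hi' | hi'
    · rw [ov_mem hi', ov_mem (h.1 hi')]
    · have hiA : i ∉ A := fun hc => disjoint_left.mp hAD hc (h.2 hi')
      rw [ov_notMem (fun hc => hiA (h.1 hc)), ov_notMem hiA]

/-- energy of the frozen tensors: `∑_{|D| = d} ‖h_{A ∪ D}(u_A, ·)‖²` -/
noncomputable def WF (w : ∀ i, V i → ℝ) (g : Finset ι → (∀ i, V i) → ℝ) (A : Finset ι)
    (u : ∀ i, V i) (d : ℕ) : ℝ :=
  ∑ D with D.card = d ∧ Disjoint A D, ∑ x, pw w x * hh g (A ∪ D) (ov A u x) ^ 2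

/-- The energies of the frozen tensors from the energies of the pinned families. -/
theorem PFam.WF_le (F : PFam w g m) (A : Finset ι) (u : ∀ i, V i) (d : ℕ) :
    WF w g A u d ≤ 2 ^ A.card * ∑ A' ∈ A.powerset, WW w (gp g A' u) d := by
  unfold WF WW nr
  have hpw : ∀ x, 0 ≤ Ab.pw w x := F.dfam.pw_nonneg
  have h1 : ∀ D ∈ (univ.filter fun D : Finset ι => D.card = d ∧ Disjoint A D),
      ∑ x, Ab.pw w x * hh g (A ∪ D) (ov A u x) ^ 2
        ≤ 2 ^ A.card * ∑ A' ∈ A.powerset, ∑ x, Ab.pw w x * hh (gp g A' u) D x ^ 2 := by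
    intro D hD
    have hAD := (mem_filter.mp hD).2.2
    rw [sum_comm, mul_sum]
    refine sum_le_sum fun x _ => ?_
    rw [← mul_sum]
    have h2 : hh g (A ∪ D) (ov A u x) ^ 2
        ≤ 2 ^ A.card * ∑ A' ∈ A.powerset, hh (gp g A' u) D x ^ 2 := by
      rw [hh_frozen F.loc hAD]
      have h3 := sq_sum_le_card_mul_sum_sq (s := A.powerset)
        (f := fun A' => (-1 : ℝ) ^ (A.card - A'.card) * hh (gp g A' u) D x)
      rw [card_powerset] at h3
      push_cast at h3
      refine h3.trans (le_of_eq ?_)
      congr 1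
      refine sum_congr rfl fun A' _ => ?_
      rw [mul_pow, ← pow_mul, mul_comm _ 2, pow_mul]
      simp
    calc Ab.pw w x * hh g (A ∪ D) (ov A u x) ^ 2
        ≤ Ab.pw w x * (2 ^ A.card * ∑ A' ∈ A.powerset, hh (gp g A' u) D x ^ 2) :=
          mul_le_mul_of_nonneg_left h2 (hpw x)
      _ = _ := by ring
  refine (sum_le_sum h1).trans ?_
  rw [← mul_sum, sum_comm]
  refine mul_le_mul_of_nonneg_left ?_ (by positivity)
  refine sum_le_sum fun A' _ => ?_
  refine sum_le_sum_of_subset_of_nonneg ?_ fun D _ _ =>
    sum_nonneg fun x _ => mul_nonneg (hpw x) (sq_nonneg _)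
  intro D hD
  rw [mem_filter] at hD ⊢
  exact ⟨hD.1, hD.2.1⟩

/-! ### Restriction to a set of sites -/

/-- densities of the marginal on the sites in `S` -/
def gr (g : Finset ι → (∀ i, V i) → ℝ) (S : Finset ι) (C : Finset ι) (x : ∀ i, V i) : ℝ :=
  g (C ∩ S) x

theorem PFam.restr (F : PFam w g m) (S : Finset ι) : PFam w (gr g S) m where
  w_nonneg := F.w_nonneg
  w_sum := F.w_sum
  g_nonneg := fun C x => F.g_nonneg _ _
  g_empty := fun x => by
    unfold gr
    rw [empty_inter]
    exact F.g_empty x
  loc := fun C => (F.loc (C ∩ S)).mono inter_subset_left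
  avg := by
    intro C i hi x
    unfold gr
    by_cases hS : i ∈ S
    · have h1 : insert i C ∩ S = insert i (C ∩ S) := insert_inter_of_mem hS
      rw [h1]
      exact F.avg (C ∩ S) i (fun hc => hi (mem_inter.mp hc).1) x
    · have h1 : insert i C ∩ S = C ∩ S := insert_inter_of_notMem hS
      have h2 : ∀ a, g (C ∩ S) (Function.update x i a) = g (C ∩ S) x := fun a =>
        (F.loc (C ∩ S)).indep (fun hc => hS (mem_inter.mp hc).2) x a
      rw [h1, sum_congr rfl fun a _ => by rw [h2 a], ← sum_mul, F.w_sum, one_mul]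

lemma hh_gr (g : Finset ι → (∀ i, V i) → ℝ) (S B : Finset ι) (x : ∀ i, V i) :
    hh (gr g S) B x = if B ⊆ S then hh g B x else 0 := by
  by_cases hB : B ⊆ S
  · rw [if_pos hB]
    unfold hh gr
    refine sum_congr rfl fun C hC => ?_
    rw [inter_eq_left.mpr ((mem_powerset.mp hC).trans hB)]
  · rw [if_neg hB]
    obtain ⟨i, hiB, hiS⟩ := not_subset.mp hB
    obtain ⟨B', hB', rfl⟩ : ∃ B', i ∉ B' ∧ B = insert i B' :=
      ⟨B.erase i, notMem_erase i B, (insert_erase hiB).symm⟩
    rw [hh_insert _ hB']
    refine sum_eq_zero fun C _ => ?_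
    unfold gr
    rw [insert_inter_of_notMem hiS, sub_self, mul_zero]

end Vale.Agent.P042.H685
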