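import Vale.Agent.P042.H685.H2In
import Vale.Agent.P042.H121.Main

/-! Theorem H for the pinned laws, from the law-level data. -/

set_option linter.unusedSectionVars false
set_option linter.unusedDecidableInType false

namespace Vale.Agent.P042.H685

open Finset Vale.Agent.P042.H779 Vale.Agent.P042.H779.Ab

variable {ι : Type*} [Fintype ι] [DecidableEq ι] {V : ι → Type*} [∀ i, Fintype (V i)]
  [∀ i, DecidableEq (V i)] {u p : ∀ i, V i → ℝ} {μ : (∀ i, V i) → ℝ}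
  {rt : ι → ℝ} {a : ℝ} {c : ι → ℝ} {d0 : ℕ} {δ wm : ℝ}
  {I : Finset ι} {l0 cm rm ξ K1 : ℝ} {dd : ℕ} {D : ℝ}

/-- **Theorem H for the pinned law.**  `A`: the pinned sites; `I`: the free high sites. -/
theorem H2Hyp.energy (H : H2Hyp u p μ rt a c d0 δ wm I l0 cm rm ξ K1 dd D) {A : Finset ι}
    (hAI : Disjoint A I) (x : ∀ i, V i) {s1 d l : ℕ} (hl : 1 ≤ l)
    (hln : Real.log (4 * I.card) ≤ l) (hd : 4 * s1 * l ≤ d) (hdd : A.card + d ≤ dd)
    (hd0 : A.card + s1 ≤ d0) {D1 : ℝ} (hD1 : D + A.card * Real.log (1 / wm) ≤ D1)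
    {e q : ℕ} (he : 1 ≤ e) (hq : Even q) (hqe : q * e ≤ s1)
    {P R G C1 : ℝ} (hP : 1 ≤ P) (hR : 2 * (Real.exp cm * rm / ξ) ≤ R)
    (hR' : 4 * Real.exp cm / l0 ≤ R)
    (hQ : 2 * (ξ⁻¹ * H956.KL d D1 (Real.exp cm * rm) + K1) ≤ R * P)
    (hG : 1 ≤ G) (hC : 1 ≤ C1) (heG : (e : ℝ) ≤ G)
    (hlo : Real.log (Fintype.card (Σ i, V i)) ≤ G) (hlk : Real.log (3 * I.card) ≤ G)
    (hOm : (Fintype.card (Σ i, V i) : ℝ) ≤ P ^ (2 * C1)) (hGP : 16 * G ^ 2 ≤ P ^ (2 / 3 : ℝ))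
    (hql : P ^ (2 / 3 : ℝ) ≤ 2 * (q : ℝ)) (hqu : 2 * (q : ℝ) ≤ 8 * P ^ (2 / 3 : ℝ)) :
    WW p (gr (gp (gdw p μ) A x) I) e
      ≤ Kp a c A ^ 2 * (1440 * G * R ^ 2 * P ^ (1 - 1 / (12 * C1))) ^ e := by
  have hξ := H.xi_pos
  have hrm := H.rm_one
  have hcm := Real.one_le_exp H.cm_nonneg
  have hR0 : 1 ≤ Real.exp cm * rm / ξ := by
    rw [le_div_iff₀ hξ, one_mul]
    have := H.xi_one
    nlinarith
  have hR1 : 1 ≤ R := by linarith
  have hP23 : 0 < P ^ (2 / 3 : ℝ) := Real.rpow_pos_of_pos (by linarith) _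
  have hq1 : 1 ≤ q := by
    have : (0 : ℝ) < q := by linarith
    exact_mod_cast this
  have hes : e ≤ s1 := by
    calc e = 1 * e := (one_mul e).symm
      _ ≤ q * e := Nat.mul_le_mul_right e hq1
      _ ≤ s1 := hqe
  rcases Nat.eq_zero_or_pos I.card with hI | hI
  · -- no free sites
    have hI' : I = ∅ := card_eq_zero.mp hI
    have h0 : WW p (gr (gp (gdw p μ) A x) I) e = 0 := by
      unfold WW nr
      refine sum_eq_zero fun B hB => sum_eq_zero fun y _ => ?_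
      have hB' := (mem_filter.mp hB).2
      have : ¬ B ⊆ I := fun h => by
        rw [hI', subset_empty] at h
        rw [h, card_empty] at hB'
        omega
      rw [hh_gr, if_neg this]
      ring
    rw [h0]
    have := Real.rpow_nonneg (by linarith : (0 : ℝ) ≤ P) (1 - 1 / (12 * C1))
    positivity
  · refine H121.thmH ((pfam_ref H.data.ref).pin A x) I he hq hI hP hR0 hR hG hC (Kp_pos A) ?_ heG
      hlo hlk hOm hGP hql hqu ?_ ?_ ?_
    · exact (gdw_le_cost' H.data (by omega) x).trans (exp_le_Kp A)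
    · intro l' hl'
      exact H.LI hAI x hl hln hd hdd hd0 hD1 hQ (hl'.trans hqe)
    · intro S hS d' hSd v
      exact H.PH hAI x hl hln hd hdd hd0 hD1 hQ hS (by omega) v
    · intro S hS hSe v f _ hf
      exact H.INJ x (by omega) hR' hS hSe v f hf

end Vale.Agent.P042.H685
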