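import Vale.Agent.P042.H779.MuBase

/-! Degenerate families on a finite product space, bounded degree functions, and the moment
form of the level inequality: the mean of a function `Ψ` of degree `d` under a law whose
Hoeffding parts are small on the levels `≤ q d` is bounded by the moment of order `2q` of `Ψ`
in the product space. -/

set_option linter.unusedSectionVars false
set_option linter.unusedDecidableInType false

namespace Vale.Agent.P042.H685

open Finset Vale.Agent.P042.H779.Ab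

variable {ι : Type*} [Fintype ι] [DecidableEq ι] {V : ι → Type*} [∀ i, Fintype (V i)]
  [∀ i, DecidableEq (V i)] {w : ∀ i, V i → ℝ}

/-- `ψ` has zero average over coordinate `j`. -/
def Deg (w : ∀ i, V i → ℝ) (j : ι) (ψ : (∀ i, V i) → ℝ) : Prop :=
  ∀ x, ∑ a, w j a * ψ (Function.update x j a) = 0

/-- Averaging over one coordinate leaves product sums unchanged. -/
lemma pw_avg' (h1 : ∀ i, ∑ a, w i a = 1) (i : ι) (H : (∀ i, V i) → ℝ) :
    ∑ x, pw w x * H x = ∑ x, pw w x * ∑ a, w i a * H (Function.update x i a) := by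
  have hR : ∑ x, pw w x * ∑ a, w i a * H (Function.update x i a)
      = ∑ p : (∀ i, V i) × V i, pw w p.1 * (w i p.2 * H (Function.update p.1 i p.2)) := by
    rw [Fintype.sum_prod_type]
    refine sum_congr rfl fun x _ => ?_
    rw [mul_sum]
  have hL : ∑ x, pw w x * H x = ∑ p : (∀ i, V i) × V i, w i p.2 * (pw w p.1 * H p.1) := by
    rw [Fintype.sum_prod_type]
    refine sum_congr rfl fun x _ => ?_
    have : ∑ y, w i y * (pw w x * H x) = pw w x * H x := by
      rw [← sum_mul, h1, one_mul]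
    exact this.symm
  rw [hL, hR]
  let e : (∀ i, V i) × V i ≃ (∀ i, V i) × V i :=
    { toFun := fun p => (Function.update p.1 i p.2, p.1 i)
      invFun := fun p => (Function.update p.1 i p.2, p.1 i)
      left_inv := by
        intro p; ext j
        · by_cases hj : j = i
          · subst hj; simp
          · simp [hj]
        · simp
      right_inv := by
        intro p; ext j
        · by_cases hj : j = i
          · subst hj; simp
          · simp [hj]
        · simp }
  refine (Fintype.sum_equiv e _ _ fun p => ?_).symm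
  obtain ⟨x, a⟩ := p
  simp only [e, Equiv.coe_fn_mk]
  have hp : ∀ y : ∀ i, V i, pw w y = w i (y i) * ∏ j ∈ univ.erase i, w j (y j) := by
    intro y
    unfold pw
    rw [mul_prod_erase univ (fun j => w j (y j)) (mem_univ i)]
  have hq : ∏ j ∈ univ.erase i, w j (Function.update x i a j)
      = ∏ j ∈ univ.erase i, w j (x j) := by
    refine prod_congr rfl fun j hj => ?_
    have : j ≠ i := (mem_erase.mp hj).1
    simp [this]
  rw [hp x, hp (Function.update x i a), hq]
  simp only [Function.update_self]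
  ring

lemma deg_kill (h1 : ∀ i, ∑ a, w i a = 1) {j : ι} {ψ H : (∀ i, V i) → ℝ} (hψ : Deg w j ψ)
    (hH : Indep j H) : ∑ x, pw w x * (ψ x * H x) = 0 := by
  rw [pw_avg' h1 j]
  refine sum_eq_zero fun x _ => ?_
  have : ∑ a, w j a * (ψ (Function.update x j a) * H (Function.update x j a)) = 0 := by
    have h1 : ∀ a, w j a * (ψ (Function.update x j a) * H (Function.update x j a))
        = H x * (w j a * ψ (Function.update x j a)) := by
      intro a; rw [hH]; ring
    rw [sum_congr rfl fun a _ => h1 a, ← mul_sum, hψ x, mul_zero]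
  rw [this, mul_zero]

/-! ### Functions of bounded degree -/

variable (V) in
/-- linear span of the functions of at most `d` coordinates -/
def DL (d : ℕ) : Submodule ℝ ((∀ i, V i) → ℝ) :=
  Submodule.span ℝ {F | ∃ D : Finset ι, D.card ≤ d ∧ Loc D F}

lemma Loc.memDL {D : Finset ι} {F : (∀ i, V i) → ℝ} (h : Loc D F) {d : ℕ} (hd : D.card ≤ d) :
    F ∈ DL V d := Submodule.subset_span ⟨D, hd, h⟩

lemma DL_mono {d e : ℕ} (h : d ≤ e) : DL V d ≤ DL V e :=
  Submodule.span_mono fun _ ⟨D, hD, hF⟩ => ⟨D, hD.trans h, hF⟩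

lemma DL_mul {d e : ℕ} {F G : (∀ i, V i) → ℝ} (hF : F ∈ DL V d) (hG : G ∈ DL V e) :
    F * G ∈ DL V (d + e) := by
  have h := Submodule.mul_mem_mul hF hG
  unfold DL at h
  rw [Submodule.span_mul_span] at h
  refine Submodule.span_mono ?_ h
  rintro _ ⟨F', ⟨D, hD, hF'⟩, G', ⟨E, hE, hG'⟩, rfl⟩
  refine ⟨D ∪ E, (card_union_le D E).trans (add_le_add hD hE), ?_⟩
  exact (hF'.mono subset_union_left).mul (hG'.mono subset_union_right)

lemma DL_one (d : ℕ) : (1 : (∀ i, V i) → ℝ) ∈ DL V d :=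
  Loc.memDL (D := ∅) (fun _ _ _ => rfl) (by simp)

lemma DL_pow {d : ℕ} {F : (∀ i, V i) → ℝ} (hF : F ∈ DL V d) (q : ℕ) : F ^ q ∈ DL V (q * d) := by
  induction q with
  | zero => simpa using DL_one 0
  | succ q ih => rw [pow_succ, Nat.succ_mul]; exact DL_mul ih hF

/-- Functions of degree `< |B|` are orthogonal to the functions degenerate in all of `B`. -/
lemma DL_kill (h1 : ∀ i, ∑ a, w i a = 1) {d : ℕ} {F : (∀ i, V i) → ℝ} (hF : F ∈ DL V d)
    {B : Finset ι} (hB : d < B.card) {ψ : (∀ i, V i) → ℝ} (hψ : ∀ j ∈ B, Deg w j ψ) :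
    ∑ x, pw w x * (ψ x * F x) = 0 := by
  unfold DL at hF
  induction hF using Submodule.span_induction with
  | mem F hF =>
    obtain ⟨D, hD, hF⟩ := hF
    obtain ⟨j, hjB, hjD⟩ := exists_mem_notMem_of_card_lt_card (lt_of_le_of_lt hD hB)
    exact deg_kill h1 (hψ j hjB) (hF.indep hjD)
  | zero => simp
  | add F G _ _ h2 h3 =>
    simp only [Pi.add_apply, mul_add, sum_add_distrib, h2, h3, add_zero]
  | smul c F _ h2 =>
    have : ∀ x, pw w x * (ψ x * (c • F) x) = c * (pw w x * (ψ x * F x)) := by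
      intro x; simp only [Pi.smul_apply, smul_eq_mul]; ring
    rw [sum_congr rfl fun x _ => this x, ← mul_sum, h2, mul_zero]

/-! ### Degenerate families -/

/-- A family `h B` of functions of the coordinates in `B`, centred in each of them. -/
structure DFam (w : ∀ i, V i → ℝ) (h : Finset ι → (∀ i, V i) → ℝ) : Prop where
  w_nonneg : ∀ i a, 0 ≤ w i a
  w_sum : ∀ i, ∑ a, w i a = 1
  loc : ∀ B, Loc B (h B)
  deg : ∀ B, ∀ j ∈ B, Deg w j (h B)

section
variable {h : Finset ι → (∀ i, V i) → ℝ}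

/-- squared norm of one Hoeffding part -/
noncomputable def nr (w : ∀ i, V i → ℝ) (h : Finset ι → (∀ i, V i) → ℝ) (B : Finset ι) : ℝ :=
  ∑ x, pw w x * h B x ^ 2

lemma DFam.pw_nonneg (F : DFam w h) (x : ∀ i, V i) : 0 ≤ pw w x :=
  prod_nonneg fun i _ => F.w_nonneg i _

lemma DFam.nr_nonneg (F : DFam w h) (B : Finset ι) : 0 ≤ nr w h B :=
  sum_nonneg fun x _ => mul_nonneg (F.pw_nonneg x) (sq_nonneg _)

lemma DFam.ortho (F : DFam w h) {B C : Finset ι} (hBC : B ≠ C) :
    ∑ x, pw w x * (h B x * h C x) = 0 := by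
  by_cases hs : B ⊆ C
  · obtain ⟨j, hjC, hjB⟩ := exists_of_ssubset (hs.ssubset_of_ne hBC)
    have := deg_kill F.w_sum (F.deg C j hjC) ((F.loc B).indep hjB)
    rw [← this]
    exact sum_congr rfl fun x _ => by ring
  · obtain ⟨j, hjB, hjC⟩ := not_subset.mp hs
    exact deg_kill F.w_sum (F.deg B j hjB) ((F.loc C).indep hjC)

/-- Pythagoras -/
lemma DFam.sum_sq (F : DFam w h) (𝓑 : Finset (Finset ι)) (c : Finset ι → ℝ) :
    ∑ x, pw w x * (∑ B ∈ 𝓑, c B * h B x) ^ 2 = ∑ B ∈ 𝓑, c B ^ 2 * nr w h B := by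
  have h1 : ∀ x, pw w x * (∑ B ∈ 𝓑, c B * h B x) ^ 2
      = ∑ B ∈ 𝓑, ∑ C ∈ 𝓑, c B * c C * (pw w x * (h B x * h C x)) := by
    intro x
    rw [sq, sum_mul_sum, mul_sum]
    refine sum_congr rfl fun B _ => ?_
    rw [mul_sum]
    exact sum_congr rfl fun C _ => by ring
  rw [sum_congr rfl fun x _ => h1 x, sum_comm]
  refine sum_congr rfl fun B hB => ?_
  rw [sum_comm]
  have h2 : ∀ C ∈ 𝓑, ∑ x, c B * c C * (pw w x * (h B x * h C x))
      = if B = C then c B ^ 2 * nr w h B else 0 := by
    intro C _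
    rw [← mul_sum]
    by_cases hBC : B = C
    · subst hBC
      rw [if_pos rfl]
      unfold nr
      rw [sq (c B)]
      congr 1
      exact sum_congr rfl fun x _ => by ring
    · rw [if_neg hBC, F.ortho hBC, mul_zero]
  rw [sum_congr rfl h2, sum_ite_eq, if_pos hB]

/-- Pairing the (weighted) sum of the family with a sum over a subfamily. -/
lemma DFam.pair (F : DFam w h) (c : Finset ι → ℝ) (𝓑 : Finset (Finset ι)) (b : Finset ι → ℝ) :
    ∑ x, pw w x * ((∑ B, c B * h B x) * ∑ B ∈ 𝓑, b B * h B x)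
      = ∑ B ∈ 𝓑, c B * b B * nr w h B := by
  have h1 : ∀ x, pw w x * ((∑ B, c B * h B x) * ∑ B ∈ 𝓑, b B * h B x)
      = ∑ C ∈ 𝓑, ∑ B, c B * b C * (pw w x * (h B x * h C x)) := by
    intro x
    rw [sum_mul_sum, sum_comm, mul_sum]
    refine sum_congr rfl fun C _ => ?_
    rw [mul_sum]
    exact sum_congr rfl fun B _ => by ring
  rw [sum_congr rfl fun x _ => h1 x, sum_comm]
  refine sum_congr rfl fun C hC => ?_
  rw [sum_comm]
  have h2 : ∀ B ∈ (univ : Finset (Finset ι)), ∑ x, c B * b C * (pw w x * (h B x * h C x))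
      = if B = C then c C * b C * nr w h C else 0 := by
    intro B _
    rw [← mul_sum]
    by_cases hBC : B = C
    · subst hBC
      rw [if_pos rfl]
      unfold nr
      congr 1
      exact sum_congr rfl fun x _ => by ring
    · rw [if_neg hBC, F.ortho hBC, mul_zero]
  rw [sum_congr rfl h2, sum_ite_eq', if_pos (mem_univ C)]

/-- **Level inequality, dual form**: the mean of a function of degree `≤ d` under the density
`∑ c_B h_B` only sees the levels `≤ d`. -/
lemma DFam.mean_le (F : DFam w h) (c : Finset ι → ℝ) {d : ℕ} {G : (∀ i, V i) → ℝ}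
    (hG : G ∈ DL V d) :
    ∑ x, pw w x * ((∑ B, c B * h B x) * G x)
      ≤ √(∑ B with B.card ≤ d, c B ^ 2 * nr w h B) * √(∑ x, pw w x * G x ^ 2) := by
  have h1 : ∑ x, pw w x * ((∑ B, c B * h B x) * G x)
      = ∑ x, pw w x * ((∑ B with B.card ≤ d, c B * h B x) * G x) := by
    have h2 : ∀ x, pw w x * ((∑ B, c B * h B x) * G x)
        = pw w x * ((∑ B with B.card ≤ d, c B * h B x) * G x)
          + ∑ B with ¬ B.card ≤ d, c B * (pw w x * (h B x * G x)) := by
      intro x
      rw [← sum_filter_add_sum_filter_not univ (fun B : Finset ι => B.card ≤ d)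
        (fun B => c B * h B x), add_mul, mul_add]
      congr 1
      rw [sum_mul, mul_sum]
      exact sum_congr rfl fun B _ => by ring
    rw [sum_congr rfl fun x _ => h2 x, sum_add_distrib, sum_comm (s := univ)]
    have h3 : ∑ B with ¬ B.card ≤ d, ∑ x, c B * (pw w x * (h B x * G x)) = 0 := by
      refine sum_eq_zero fun B hB => ?_
      rw [← mul_sum, DL_kill F.w_sum hG (not_le.mp (mem_filter.mp hB).2) (F.deg B), mul_zero]
    rw [h3, add_zero]
  rw [h1, ← F.sum_sq]
  have h4 : ∀ x, pw w x * ((∑ B with B.card ≤ d, c B * h B x) * G x)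
      = (√(pw w x) * ∑ B with B.card ≤ d, c B * h B x) * (√(pw w x) * G x) := by
    intro x
    have := Real.mul_self_sqrt (F.pw_nonneg x)
    calc pw w x * ((∑ B with B.card ≤ d, c B * h B x) * G x)
        = (√(pw w x) * √(pw w x)) * ((∑ B with B.card ≤ d, c B * h B x) * G x) := by rw [this]
      _ = _ := by ring
  rw [sum_congr rfl fun x _ => h4 x]
  refine (Real.sum_mul_le_sqrt_mul_sqrt _ _ _).trans (le_of_eq ?_)
  congr 2
  · refine sum_congr rfl fun x _ => ?_
    rw [mul_pow, Real.sq_sqrt (F.pw_nonneg x)]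
  · refine sum_congr rfl fun x _ => ?_
    rw [mul_pow, Real.sq_sqrt (F.pw_nonneg x)]

/-- **Moment inequality** (Jensen for even powers, then the level inequality). -/
theorem DFam.moment (F : DFam w h) (c : Finset ι → ℝ) (hf : ∀ x, 0 ≤ ∑ B, c B * h B x)
    (hf1 : ∑ x, pw w x * ∑ B, c B * h B x = 1) {d q : ℕ} (hq : Even q) {Ψ : (∀ i, V i) → ℝ}
    (hΨ : Ψ ∈ DL V d) :
    (∑ x, pw w x * ((∑ B, c B * h B x) * Ψ x)) ^ q
      ≤ √(∑ B with B.card ≤ q * d, c B ^ 2 * nr w h B) * √(∑ x, pw w x * Ψ x ^ (2 * q)) := by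
  have h1 : (∑ x, (pw w x * ∑ B, c B * h B x) * Ψ x) ^ q
      ≤ ∑ x, (pw w x * ∑ B, c B * h B x) * Ψ x ^ q :=
    Real.pow_arith_mean_le_arith_mean_pow_of_even univ _ _
      (fun x _ => mul_nonneg (F.pw_nonneg x) (hf x)) hf1 hq
  have h2 := F.mean_le c (DL_pow hΨ q)
  have h3 : ∑ x, pw w x * (Ψ ^ q) x ^ 2 = ∑ x, pw w x * Ψ x ^ (2 * q) := by
    refine sum_congr rfl fun x _ => ?_
    rw [Pi.pow_apply, ← pow_mul, mul_comm q 2]
  rw [h3] at h2
  have h4 : ∑ x, pw w x * ((∑ B, c B * h B x) * Ψ x)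
      = ∑ x, (pw w x * ∑ B, c B * h B x) * Ψ x := sum_congr rfl fun x _ => by ring
  have h5 : ∑ x, (pw w x * ∑ B, c B * h B x) * Ψ x ^ q
      = ∑ x, pw w x * ((∑ B, c B * h B x) * (Ψ ^ q) x) := by
    refine sum_congr rfl fun x _ => ?_
    rw [Pi.pow_apply]; ring
  rw [h4]
  exact h1.trans (h5.le.trans h2)

end

/-! ### The Hoeffding parts of a consistent family of densities -/

/-- Hoeffding part of the family of densities `g`. -/
noncomputable def hh (g : Finset ι → (∀ i, V i) → ℝ) (B : Finset ι) (x : ∀ i, V i) : ℝ :=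
  ∑ C ∈ B.powerset, (-1) ^ (B.card - C.card) * g C x

section
variable {g : Finset ι → (∀ i, V i) → ℝ}

lemma hh_loc (hg : ∀ C, Loc C (g C)) (B : Finset ι) : Loc B (hh g B) := by
  intro x y hxy
  unfold hh
  exact sum_congr rfl fun C hC => by rw [(hg C).mono (mem_powerset.mp hC) x y hxy]

lemma hh_empty (h0 : ∀ x, g ∅ x = 1) (x : ∀ i, V i) : hh g ∅ x = 1 := by simp [hh, h0]

lemma hh_insert (g : Finset ι → (∀ i, V i) → ℝ) {j : ι} {B : Finset ι} (hj : j ∉ B)
    (x : ∀ i, V i) : hh g (insert j B) x = ∑ C ∈ B.powerset, (-1) ^ (B.card - C.card) *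
      (g (insert j C) x - g C x) := by
  unfold hh
  rw [sum_powerset_insert hj, ← sum_add_distrib]
  refine sum_congr rfl fun C hC => ?_
  have hCB := mem_powerset.mp hC
  have hc := card_le_card hCB
  have hjC : j ∉ C := fun h => hj (hCB h)
  rw [card_insert_of_notMem hj, card_insert_of_notMem hjC]
  have h1 : B.card + 1 - C.card = (B.card - C.card) + 1 := by omega
  have h2 : B.card + 1 - (C.card + 1) = B.card - C.card := by omega
  rw [h1, h2, pow_succ]
  ring

lemma hh_deg (F : Fam w g (fun _ => True)) {j : ι} {B : Finset ι} (hj : j ∈ B) :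
    Deg w j (hh g B) := by
  intro x
  obtain ⟨B', hB', rfl⟩ : ∃ B', j ∉ B' ∧ B = insert j B' :=
    ⟨B.erase j, notMem_erase j B, (insert_erase hj).symm⟩
  simp_rw [hh_insert g hB', mul_sum]
  rw [sum_comm]
  refine sum_eq_zero fun C hC => ?_
  have hjC : j ∉ C := fun hc => hB' (mem_powerset.mp hC hc)
  have h1 : ∀ a, w j a * ((-1) ^ (B'.card - C.card) *
      (g (insert j C) (Function.update x j a) - g C (Function.update x j a)))
      = (-1) ^ (B'.card - C.card) * (w j a * g (insert j C) (Function.update x j a))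
        - (-1) ^ (B'.card - C.card) * g C x * w j a := by
    intro a
    rw [F.g_upd C j hjC]
    ring
  rw [sum_congr rfl fun a _ => h1 a, sum_sub_distrib, ← mul_sum, F.g_avg C j hjC trivial,
    ← mul_sum, F.w_sum]
  ring

lemma hh_fam (F : Fam w g (fun _ => True)) (hg : ∀ C, Loc C (g C)) : DFam w (hh g) where
  w_nonneg := F.w_nonneg
  w_sum := F.w_sum
  loc := hh_loc hg
  deg := fun _ _ hj => hh_deg F hj

/-- Keep each coordinate with its own probability `t i`, resample the others from the reference: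
the density is `∑ (∏ t) h_B = ∑_S P(kept set = S) g_S`. -/
lemma sum_hh_eq (g : Finset ι → (∀ i, V i) → ℝ) (t : ι → ℝ) (x : ∀ i, V i) :
    ∑ B, (∏ i ∈ B, t i) * hh g B x
      = ∑ C, ((∏ i ∈ C, t i) * ∏ i ∈ univ \ C, (1 - t i)) * g C x := by
  have h1 : ∀ C : Finset ι, ((∏ i ∈ C, t i) * ∏ i ∈ univ \ C, (1 - t i)) * g C x
      = ∑ E ∈ (univ \ C).powerset, (∏ i ∈ C ∪ E, t i) * (-1) ^ E.card * g C x := by
    intro C
    have h2 : ∏ i ∈ univ \ C, (1 - t i)
        = ∑ E ∈ (univ \ C).powerset, (-1) ^ E.card * ∏ i ∈ E, t i := by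
      have h3 : ∏ i ∈ univ \ C, (1 - t i) = ∏ i ∈ univ \ C, (1 + -t i) :=
        prod_congr rfl fun i _ => by ring
      rw [h3, prod_one_add]
      exact sum_congr rfl fun E _ => by rw [prod_neg]
    rw [h2, mul_sum, sum_mul]
    refine sum_congr rfl fun E hE => ?_
    have hd : Disjoint C E := disjoint_of_subset_right (mem_powerset.mp hE) disjoint_sdiff
    rw [prod_union hd]; ring
  rw [sum_congr rfl fun C _ => h1 C]
  unfold hh
  simp_rw [mul_sum]
  rw [sum_sigma', sum_sigma']
  refine sum_bij' (fun p _ => (⟨p.2, p.1 \ p.2⟩ : Σ _ : Finset ι, Finset ι))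
    (fun p _ => (⟨p.1 ∪ p.2, p.1⟩ : Σ _ : Finset ι, Finset ι)) ?_ ?_ ?_ ?_ ?_
  · rintro ⟨B, C⟩ h
    simp only [mem_sigma, mem_univ, true_and, mem_powerset] at h ⊢
    exact sdiff_subset_sdiff (subset_univ _) le_rfl
  · rintro ⟨C, E⟩ h
    simp only [mem_sigma, mem_univ, true_and, mem_powerset] at h ⊢
    exact subset_union_left
  · rintro ⟨B, C⟩ h
    simp only [mem_sigma, mem_univ, true_and, mem_powerset] at h
    simp only [Sigma.mk.injEq, heq_eq_eq, and_true]
    exact union_sdiff_of_subset h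
  · rintro ⟨C, E⟩ h
    simp only [mem_sigma, mem_univ, true_and, mem_powerset] at h
    simp only [Sigma.mk.injEq, heq_eq_eq, true_and]
    rw [union_sdiff_left]
    exact sdiff_eq_self_of_disjoint (disjoint_of_subset_left h sdiff_disjoint)
  · rintro ⟨B, C⟩ h
    simp only [mem_sigma, mem_univ, true_and, mem_powerset] at h
    simp only
    rw [union_sdiff_of_subset h, card_sdiff_of_subset h]
    ring

end

end Vale.Agent.P042.H685
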