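import Vale.Agent.P042.H685.H2Lvl
import Vale.Agent.P042.H956.LiNum
import Vale.Agent.P042.H104.Own
import Vale.Agent.P042.H104.InjM

/-! The three inputs of Theorem H for a pinned law, from the law-level data. -/

set_option linter.unusedSectionVars false
set_option linter.unusedDecidableInType false

namespace Vale.Agent.P042.H685

open Finset Vale.Agent.P042.H779 Vale.Agent.P042.H779.Ab
open Vale.Agent.P042.H482 (hc nh)
open Vale.Agent.P042.H956 (pin)

variable {ι : Type*} [Fintype ι] [DecidableEq ι] {V : ι → Type*} [∀ i, Fintype (V i)]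
  [∀ i, DecidableEq (V i)] {u p : ∀ i, V i → ℝ} {μ : (∀ i, V i) → ℝ}
  {rt : ι → ℝ} {a : ℝ} {c : ι → ℝ} {d0 : ℕ} {δ wm : ℝ}

/-- comparison of the even moments of local sums over `I`, centred for `u`, under the pinned
measure and under the product measure (the text of 104's `DCdI`) -/
def DCdI (I : Finset ι) (u : ∀ i, V i → ℝ) (mu : (∀ i, V i) → ℝ) (dd : ℕ) (D : ℝ) : Prop :=
  ∀ Q U : Finset ι, U ⊆ I → Disjoint Q U → ∀ b : ∀ i, V i, ∀ T : Finset ι → (∀ i, V i) → ℝ,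
    (∀ E, Loc E (T E)) → (∀ E, ∀ j ∈ E, Deg u j (T E)) → ∀ e k : ℕ, Q.card + 2 * k * e ≤ dd →
      ∑ x, pin u mu Q b x * (∑ E ∈ U.powersetCard e, T E x) ^ (2 * k)
        ≤ Real.exp D * ∑ x, Ab.pw u x * (∑ E ∈ U.powersetCard e, T E x) ^ (2 * k)

lemma DCdI.mono {I J : Finset ι} {u : ∀ i, V i → ℝ} {mu : (∀ i, V i) → ℝ} {dd : ℕ} {D : ℝ}
    (h : DCdI J u mu dd D) (hIJ : I ⊆ J) : DCdI I u mu dd D :=
  fun Q U hU => h Q U (hU.trans hIJ)

/-- all densities with at most `d0` pins are bounded by the cost of the pins -/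
lemma gdw_le_cost' (Dt : H104.Data p μ rt a c d0 δ wm) {Q : Finset ι} (hQ : Q.card ≤ d0)
    (x : ∀ i, V i) : gdw p μ Q x ≤ Real.exp (a + ∑ i ∈ Q, c i) := by
  have hc0 : 0 ≤ a + ∑ i ∈ Q, c i := add_nonneg Dt.a_nonneg (sum_nonneg fun i _ => Dt.c_nonneg i)
  have h1e : 1 ≤ Real.exp (a + ∑ i ∈ Q, c i) := Real.one_le_exp hc0
  rcases le_or_gt δ (marg μ Q x) with hx | hx
  · exact H104.gdw_le_cost Dt.ref Dt.δ_pos Dt.eic Dt.lam_nonneg hQ hx
  · by_cases hW : ∏ i ∈ Q, p i (x i) = 0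
    · unfold gdw
      rw [hW, div_zero]
      linarith
    · have hWp : wm ^ Q.card ≤ ∏ i ∈ Q, p i (x i) := by
        rw [← prod_const]
        refine prod_le_prod (fun i _ => Dt.wm_pos.le) fun i hi => ?_
        rcases Dt.atoms i (x i) with h | h
        · exact absurd (prod_eq_zero hi h) hW
        · exact h
      have hWm : 0 < wm ^ Q.card := pow_pos Dt.wm_pos _
      have hW0 : 0 < ∏ i ∈ Q, p i (x i) := lt_of_lt_of_le hWm hWp
      have hk : (0 : ℝ) ≤ (Fintype.card ι : ℝ) := Nat.cast_nonneg _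
      have h3 : (1 : ℝ) ≤ ((Fintype.card ι + 1 : ℕ) : ℝ) * (2 * Fintype.card ι + 1) ^ d0 := by
        have h4 : (1 : ℝ) ≤ (2 * (Fintype.card ι : ℝ) + 1) ^ d0 := one_le_pow₀ (by linarith)
        have h5 : (1 : ℝ) ≤ ((Fintype.card ι + 1 : ℕ) : ℝ) := by push_cast; linarith
        nlinarith
      have h6 : δ ≤ wm ^ d0 := by
        have := Dt.small
        have := Dt.δ_pos
        nlinarith
      have h7 : wm ^ d0 ≤ wm ^ Q.card := pow_le_pow_of_le_one Dt.wm_pos.le Dt.wm_le hQ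
      refine le_trans ?_ h1e
      unfold gdw
      rw [div_le_one hW0]
      linarith

/-- the mass of the measure pinned at `A` relative to `p` and at `S` relative to `u` -/
lemma mass_pin (hu : ∀ i b, 0 < u i b) (Dt : H104.Data p μ rt a c d0 δ wm) {I A S : Finset ι}
    {rm cm : ℝ} (hrm : ∀ i ∈ I, ∀ b, p i b ≤ rm * u i b) (hcm : ∀ i ∈ I, c i ≤ cm)
    (hS : S ⊆ I) (hd : Disjoint A S) (hcard : A.card + S.card ≤ d0) (x b : ∀ i, V i) :
    ∑ y, pin u (pin p μ A x) S b y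
      ≤ Real.exp (a + ∑ i ∈ A, c i) * (Real.exp cm * rm) ^ S.card := by
  have hp0 := Dt.ref.w_nonneg
  obtain ⟨z, hz⟩ : ∃ z, z = ov A x b := ⟨_, rfl⟩
  have hzA : ∀ i ∈ A, z i = x i := fun i hi => by rw [hz, ov_mem hi]
  have hzS : ∀ i ∈ S, z i = b i := fun i hi => by
    rw [hz, ov_notMem fun h => disjoint_left.mp hd h hi]
  have h1 : ∑ y, pin u (pin p μ A x) S b y
      = marg μ (A ∪ S) z / ((∏ i ∈ A, p i (z i)) * ∏ i ∈ S, u i (z i)) := by
    unfold marg H956.pin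
    rw [sum_div]
    refine sum_congr rfl fun y _ => ?_
    have e1 : ∏ i ∈ A, p i (x i) = ∏ i ∈ A, p i (z i) := prod_congr rfl fun i hi => by rw [hzA i hi]
    have e2 : ∏ i ∈ S, u i (b i) = ∏ i ∈ S, u i (z i) := prod_congr rfl fun i hi => by rw [hzS i hi]
    rw [e1, e2]
    by_cases hA : ∀ i ∈ A, y i = x i
    · by_cases hSS : ∀ i ∈ S, y i = b i
      · rw [if_pos hSS, if_pos hA, if_pos, div_div]
        intro i hi
        rcases mem_union.mp hi with h | h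
        · rw [hA i h, hzA i h]
        · rw [hSS i h, hzS i h]
      · rw [if_neg hSS, if_neg, zero_div]
        intro h
        exact hSS fun i hi => (h i (mem_union_right _ hi)).trans (hzS i hi)
    · rw [if_neg hA, zero_div]
      have : ¬ ∀ i ∈ A ∪ S, y i = z i := fun h =>
        hA fun i hi => (h i (mem_union_left _ hi)).trans (hzA i hi)
      rw [if_neg this, zero_div]
      split_ifs <;> rfl
  have hrm0 : ∀ i ∈ S, ∀ v, p i v ≤ rm * u i v := fun i hi => hrm i (hS hi)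
  have hcm' : ∑ i ∈ A ∪ S, c i ≤ ∑ i ∈ A, c i + S.card * cm := by
    rw [sum_union hd]
    have : ∑ i ∈ S, c i ≤ ∑ _i ∈ S, cm := sum_le_sum fun i hi => hcm i (hS hi)
    rw [sum_const, nsmul_eq_mul] at this
    linarith
  have hprod : ∏ i ∈ S, p i (z i) ≤ rm ^ S.card * ∏ i ∈ S, u i (z i) := by
    rw [← prod_const, ← prod_mul_distrib]
    exact prod_le_prod (fun i _ => hp0 i _) fun i hi => hrm0 i hi _
  have hSu : 0 < ∏ i ∈ S, u i (z i) := prod_pos fun i _ => hu i _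
  rw [h1]
  have hrpow : 0 ≤ rm ^ S.card := by
    by_contra hcon
    push Not at hcon
    have := (prod_nonneg fun i (_ : i ∈ S) => hp0 i (z i)).trans hprod
    nlinarith
  have hg := gdw_le_cost' Dt (Q := A ∪ S) ((card_union_le A S).trans hcard) z
  have hg0 : 0 ≤ gdw p μ (A ∪ S) z :=
    div_nonneg (marg_nonneg Dt.ref.prob _ _) (prod_nonneg fun i _ => hp0 i _)
  have hm : marg μ (A ∪ S) z / ((∏ i ∈ A, p i (z i)) * ∏ i ∈ S, u i (z i))
      = gdw p μ (A ∪ S) z * ((∏ i ∈ S, p i (z i)) / ∏ i ∈ S, u i (z i)) := by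
    unfold gdw
    rw [prod_union hd]
    by_cases h0 : ∏ i ∈ S, p i (z i) = 0
    · obtain ⟨i, hi, hi0⟩ := prod_eq_zero_iff.mp h0
      have : marg μ (A ∪ S) z = 0 :=
        marg_eq_zero_of_w Dt.ref.prob Dt.ref.ac (mem_union_right _ hi) hi0
      rw [this, h0]
      simp
    · by_cases h2 : ∏ i ∈ A, p i (z i) = 0
      · rw [h2]; simp
      · field_simp
  rw [hm]
  have h5 : (∏ i ∈ S, p i (z i)) / ∏ i ∈ S, u i (z i) ≤ rm ^ S.card := by
    rw [div_le_iff₀ hSu]; exact hprod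
  calc gdw p μ (A ∪ S) z * ((∏ i ∈ S, p i (z i)) / ∏ i ∈ S, u i (z i))
      ≤ Real.exp (a + ∑ i ∈ A ∪ S, c i) * rm ^ S.card :=
        mul_le_mul hg h5 (div_nonneg (prod_nonneg fun i _ => hp0 i _) hSu.le)
          (Real.exp_pos _).le
    _ ≤ Real.exp (a + (∑ i ∈ A, c i + S.card * cm)) * rm ^ S.card :=
        mul_le_mul_of_nonneg_right (Real.exp_le_exp.mpr (by linarith)) hrpow
    _ = _ := by
        rw [mul_pow, ← Real.exp_nat_mul, ← add_assoc, Real.exp_add]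
        ring

lemma pin_smul (c : ℝ) (ρ : (∀ i, V i) → ℝ) (S : Finset ι) (b y : ∀ i, V i) :
    pin u (fun y => c * ρ y) S b y = c * pin u ρ S b y := by
  unfold H956.pin
  by_cases h : ∀ i ∈ S, y i = b i
  · rw [if_pos h, if_pos h, mul_div_assoc]
  · rw [if_neg h, if_neg h, mul_zero]

/-- the comparison for the pinned measure -/
lemma dc_pin (hu : ∀ i b, 0 < u i b) (hu1 : ∀ i, ∑ b, u i b = 1)
    (Dt : H104.Data p μ rt a c d0 δ wm) {dd : ℕ} {D : ℝ} {I : Finset ι} (hDC : DCdI I u μ dd D)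
    {A S U : Finset ι} (hUI : U ⊆ I)
    (hAS : Disjoint A S) (hAU : Disjoint A U) (hSU : Disjoint S U) (x b : ∀ i, V i)
    {T : Finset ι → (∀ i, V i) → ℝ} (hT : ∀ E, Loc E (T E))
    (hT0 : ∀ E, ∀ i ∈ E, ∀ x, ∑ v, u i v * T E (Function.update x i v) = 0) {e k : ℕ}
    (hcard : A.card + S.card + 2 * (k * e) ≤ dd) :
    ∑ y, pin u (pin p μ A x) S b y * (∑ E ∈ U.powersetCard e, T E y) ^ (2 * k)
      ≤ Real.exp (D + A.card * Real.log (1 / wm))
        * ∑ y, Ab.pw u y * (∑ E ∈ U.powersetCard e, T E y) ^ (2 * k) := by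
  have hp0 := Dt.ref.w_nonneg
  have hu0 : ∀ i b, 0 ≤ u i b := fun i b => (hu i b).le
  have hu_le : ∀ i b, u i b ≤ 1 := fun i b => by
    rw [← hu1 i]
    exact single_le_sum (fun b _ => hu0 i b) (mem_univ b)
  obtain ⟨κ, hκ⟩ : ∃ κ, κ = ∏ i ∈ A, u i (x i) / p i (x i) := ⟨_, rfl⟩
  have hκ0 : 0 ≤ κ := by rw [hκ]; exact prod_nonneg fun i _ => div_nonneg (hu0 i _) (hp0 i _)
  have hκ1 : κ ≤ Real.exp (A.card * Real.log (1 / wm)) := by
    rw [Real.exp_nat_mul, Real.exp_log (by have := Dt.wm_pos; positivity), hκ, ← prod_const]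
    refine prod_le_prod (fun i _ => div_nonneg (hu0 i _) (hp0 i _)) fun i hi => ?_
    have hwm := Dt.wm_pos
    rcases Dt.atoms i (x i) with h | h
    · rw [h, div_zero]; positivity
    · exact div_le_div₀ zero_le_one (hu_le i _) hwm h
  have h1 : ∀ y, pin u (pin p μ A x) S b y = κ * pin u μ (A ∪ S) (H956.ov S b x) y := by
    intro y
    rw [pin_change (u := u) hu μ A x]
    rw [pin_smul, H956.pin_pin hAS, ← hκ]
  have h3 := hDC (A ∪ S) U hUI (disjoint_union_left.mpr ⟨hAU, hSU⟩) (H956.ov S b x) T hT hT0 e k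
    (by rw [card_union_of_disjoint hAS, mul_assoc]; exact hcard)
  have h4 : 0 ≤ ∑ y, Ab.pw u y * (∑ E ∈ U.powersetCard e, T E y) ^ (2 * k) :=
    sum_nonneg fun y _ => mul_nonneg (prod_nonneg fun i _ => hu0 i _) (by
      rw [pow_mul]; positivity)
  calc ∑ y, pin u (pin p μ A x) S b y * (∑ E ∈ U.powersetCard e, T E y) ^ (2 * k)
      = κ * ∑ y, pin u μ (A ∪ S) (H956.ov S b x) y
          * (∑ E ∈ U.powersetCard e, T E y) ^ (2 * k) := by
        rw [mul_sum]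
        refine sum_congr rfl fun y _ => ?_
        rw [h1 y]; ring
    _ ≤ κ * (Real.exp D * ∑ y, Ab.pw u y * (∑ E ∈ U.powersetCard e, T E y) ^ (2 * k)) :=
        mul_le_mul_of_nonneg_left h3 hκ0
    _ ≤ Real.exp (A.card * Real.log (1 / wm))
          * (Real.exp D * ∑ y, Ab.pw u y * (∑ E ∈ U.powersetCard e, T E y) ^ (2 * k)) :=
        mul_le_mul_of_nonneg_right hκ1 (by positivity)
    _ = _ := by rw [Real.exp_add]; ring

/-- the pinned and restricted family is the restricted family of the pinned measure -/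
lemma gr_gp_eq {A I : Finset ι} (hAI : Disjoint A I) (x : ∀ i, V i) :
    gr (gp (gdw p μ) A x) I = gr (gdw p (pin p μ A x)) I := by
  funext C y
  unfold gr gp
  have hd : Disjoint A (C ∩ I) := disjoint_of_subset_right inter_subset_right hAI
  rw [H956.gdw_pin_ov hd]

/-- the hypotheses: the law-level data relative to `p`, the comparison relative to `u` -/
structure H2Hyp (u p : ∀ i, V i → ℝ) (μ : (∀ i, V i) → ℝ) (rt : ι → ℝ) (a : ℝ) (c : ι → ℝ)
    (d0 : ℕ) (δ wm : ℝ) (I : Finset ι) (l0 cm rm ξ K1 : ℝ) (dd : ℕ) (D : ℝ) : Prop where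
  data : H104.Data p μ rt a c d0 δ wm
  u_pos : ∀ i b, 0 < u i b
  u_sum : ∀ i, ∑ b, u i b = 1
  up : ∀ i ∈ I, ∀ b, p i b ≤ rm * u i b
  rm_one : 1 ≤ rm
  lo : ∀ i ∈ I, ∀ b, p i b = 0 ∨ ξ * u i b ≤ p i b
  xi_pos : 0 < ξ
  xi_one : ξ ≤ 1
  lev1 : ∑ i ∈ I, H565.rho u p i ≤ K1
  l0_pos : 0 < l0
  l0_one : l0 ≤ 1
  rate : ∀ i ∈ I, l0 ≤ rt i
  cm_nonneg : 0 ≤ cm
  cost : ∀ i ∈ I, c i ≤ cm
  dc : DCdI I u μ dd D
  D_nonneg : 0 ≤ D

variable {I : Finset ι} {l0 cm rm ξ K1 : ℝ} {dd : ℕ} {D : ℝ}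

lemma hc_loc {w : ∀ i, V i → ℝ} {ρ : (∀ i, V i) → ℝ} (E : Finset ι) : Loc E (hc (gdw w ρ) E) := by
  intro x y hxy
  unfold hc
  refine sum_congr rfl fun C hC => ?_
  congr 1
  exact loc_gdw C _ _ fun i hi => hxy i (mem_powerset.mp hC hi)

/-- **(LI) and (PH)**, all frozen sets at once. -/
theorem H2Hyp.li (H : H2Hyp u p μ rt a c d0 δ wm I l0 cm rm ξ K1 dd D) {A : Finset ι}
    (hAI : Disjoint A I) (x : ∀ i, V i) {s1 d l : ℕ} (hl : 1 ≤ l)
    (hln : Real.log (4 * I.card) ≤ l) (hd : 4 * s1 * l ≤ d) (hdd : A.card + d ≤ dd)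
    (hd0 : A.card + s1 ≤ d0) {D1 : ℝ} (hD1 : D + A.card * Real.log (1 / wm) ≤ D1)
    {S : Finset ι} (hS : S ⊆ I) {e : ℕ} (hSe : S.card + e ≤ s1) (v : ∀ i, V i) :
    WW p (gp (gr (gp (gdw p μ) A x) I) S v) e
      ≤ (Real.exp (a + ∑ i ∈ A, c i) * (Real.exp cm * rm / ξ) ^ S.card) ^ 2
        * ((2 * (ξ⁻¹ * H956.KL d D1 (Real.exp cm * rm) + K1)) ^ e / e.factorial) := by
  obtain ⟨ρ, hρ⟩ : ∃ ρ, ρ = pin p μ A x := ⟨_, rfl⟩
  have hu := H.u_pos
  have hu0 : ∀ i b, 0 ≤ u i b := fun i b => (hu i b).le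
  have hp0 := H.data.ref.w_nonneg
  have hM : 1 ≤ Real.exp cm * rm := by
    have := Real.one_le_exp H.cm_nonneg
    have := H.rm_one
    nlinarith
  have hA0 : 1 ≤ Real.exp (a + ∑ i ∈ A, c i) :=
    Real.one_le_exp (add_nonneg H.data.a_nonneg (sum_nonneg fun i _ => H.data.c_nonneg i))
  have hlog : 0 ≤ Real.log (1 / wm) := Real.log_nonneg (by
    rw [le_div_iff₀ H.data.wm_pos, one_mul]; exact H.data.wm_le)
  have hD10 : 0 ≤ D1 := by
    have := H.D_nonneg
    have : 0 ≤ (A.card : ℝ) * Real.log (1 / wm) := by positivity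
    linarith
  have hρ0 : ∀ y, 0 ≤ ρ y := fun y => by
    rw [hρ]; exact H956.pin_nonneg hp0 H.data.ref.prob.nonneg A x y
  have hK0 : 0 ≤ H956.KL d D1 (Real.exp cm * rm) := by unfold H956.KL; positivity
  have hs1 : s1 ≤ d := by
    have : s1 * 1 ≤ 4 * s1 * l := by
      calc s1 * 1 ≤ (4 * s1) * l := Nat.mul_le_mul (by omega) hl
        _ = 4 * s1 * l := rfl
    omega
  have hli : ∀ S ⊆ I, ∀ e, S.card + e ≤ s1 → ∀ b,
      H956.W u (pin u ρ S b) (I \ S) e
        ≤ (Real.exp (a + ∑ i ∈ A, c i) * (Real.exp cm * rm) ^ S.card) ^ 2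
          * (H956.KL d D1 (Real.exp cm * rm) ^ e / e.factorial) := by
    intro S hS e hSe b
    have h1 := H956.li_num hu H.u_sum hρ0 I (Real.exp (a + ∑ i ∈ A, c i)) (Real.exp cm * rm) D1
      hA0 hM hD10 s1 d l hl hln hd
      (by
        intro S hS hSc b
        rw [hρ]
        exact mass_pin hu H.data H.up H.cost hS (disjoint_of_subset_right hS hAI) (by omega) x b)
      (by
        intro S hS hSc b e k he hes hk hke
        have hAS := disjoint_of_subset_right hS hAI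
        have h4s : 4 * s1 ≤ d := by
          calc 4 * s1 = 4 * s1 * 1 := by ring
            _ ≤ 4 * s1 * l := Nat.mul_le_mul_left _ hl
            _ ≤ d := hd
        have hbud : A.card + S.card + 2 * (k * e) ≤ dd := by omega
        have h2 := dc_pin hu H.u_sum H.data H.dc (sdiff_subset (s := I) (t := S)) hAS
          (disjoint_of_subset_right (sdiff_subset (s := I) (t := S)) hAI)
          (disjoint_sdiff (s := S) (t := I)) x b
          (T := fun E => hc (gdw u (pin u ρ S b)) E) (fun E => hc_loc E)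
          (fun E i hi x => H956.hc_av' H.u_sum (fun R i hi => H956.gdw_upd R hi)
            (fun R i hi x => H956.gdw_avg hu R hi x) hi x) hbud
        rw [← hρ] at h2
        refine h2.trans ?_
        refine mul_le_mul_of_nonneg_right (Real.exp_le_exp.mpr hD1) ?_
        exact sum_nonneg fun y _ => mul_nonneg (prod_nonneg fun i _ => hu0 i _) (by
          rw [pow_mul]; positivity)) e S hS hSe b
    refine h1.trans (mul_le_mul_of_nonneg_left (H956.div_pow_le_fact _ hK0 e) (by positivity))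
  have h3 := lvl_pin hu H.u_sum hp0 H.data.ref.w_sum H.xi_pos H.lo hli H.lev1 hS hSe v
  rw [gr_gp_eq hAI, ← hρ, H956.WW_bridge, inter_eq_left.mpr hS]
  exact h3

/-- restriction of the hypotheses to fewer sites -/
lemma H2Hyp.mono (H : H2Hyp u p μ rt a c d0 δ wm I l0 cm rm ξ K1 dd D) {I' : Finset ι}
    (h : I' ⊆ I) : H2Hyp u p μ rt a c d0 δ wm I' l0 cm rm ξ K1 dd D where
  data := H.data
  u_pos := H.u_pos
  u_sum := H.u_sum
  up := fun i hi => H.up i (h hi)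
  rm_one := H.rm_one
  lo := fun i hi => H.lo i (h hi)
  xi_pos := H.xi_pos
  xi_one := H.xi_one
  lev1 := (sum_le_sum_of_subset_of_nonneg h fun i _ _ =>
    H565.rho_nonneg H.data.ref.w_nonneg i).trans H.lev1
  l0_pos := H.l0_pos
  l0_one := H.l0_one
  rate := fun i hi => H.rate i (h hi)
  cm_nonneg := H.cm_nonneg
  cost := fun i hi => H.cost i (h hi)
  dc := H.dc.mono h
  D_nonneg := H.D_nonneg

/-- the size of the pinned law, with the absolute constant of (INJ) -/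
noncomputable def Kp (a : ℝ) (c : ι → ℝ) (A : Finset ι) : ℝ := 2 * Real.exp (a + ∑ i ∈ A, c i + 3)

lemma exp_le_Kp (A : Finset ι) : Real.exp (a + ∑ i ∈ A, c i) ≤ Kp a c A := by
  unfold Kp
  have h1 : Real.exp (a + ∑ i ∈ A, c i) ≤ Real.exp (a + ∑ i ∈ A, c i + 3) :=
    Real.exp_le_exp.mpr (by linarith)
  have := Real.exp_pos (a + ∑ i ∈ A, c i + 3)
  linarith

lemma Kp_pos (A : Finset ι) : 0 < Kp a c A := by unfold Kp; positivity

/-- **(LI)**, the form of Theorem H -/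
theorem H2Hyp.LI (H : H2Hyp u p μ rt a c d0 δ wm I l0 cm rm ξ K1 dd D) {A : Finset ι}
    (hAI : Disjoint A I) (x : ∀ i, V i) {s1 d l : ℕ} (hl : 1 ≤ l)
    (hln : Real.log (4 * I.card) ≤ l) (hd : 4 * s1 * l ≤ d) (hdd : A.card + d ≤ dd)
    (hd0 : A.card + s1 ≤ d0) {D1 : ℝ} (hD1 : D + A.card * Real.log (1 / wm) ≤ D1)
    {Q : ℝ} (hQ : 2 * (ξ⁻¹ * H956.KL d D1 (Real.exp cm * rm) + K1) ≤ Q)
    {e : ℕ} (he : e ≤ s1) :
    WW p (gr (gp (gdw p μ) A x) I) e ≤ Kp a c A ^ 2 * (Q ^ e / e.factorial) := by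
  have h1 := H.li hAI x hl hln hd hdd hd0 hD1 (S := ∅) (empty_subset I) (e := e)
    (by simpa using he) x
  rw [gp_empty, card_empty, pow_zero, mul_one] at h1
  have hK0 : 0 ≤ H956.KL d D1 (Real.exp cm * rm) := by unfold H956.KL; positivity
  have hK1 : 0 ≤ K1 :=
    (sum_nonneg fun i _ => H565.rho_nonneg H.data.ref.w_nonneg i).trans H.lev1
  have hξ := H.xi_pos
  refine h1.trans (mul_le_mul ?_ ?_ (by positivity) (by positivity))
  · exact pow_le_pow_left₀ (Real.exp_pos _).le (exp_le_Kp A) 2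
  · exact div_le_div_of_nonneg_right (pow_le_pow_left₀ (by positivity) hQ e) (by positivity)

/-- **(PH)**, the form of Theorem H -/
theorem H2Hyp.PH (H : H2Hyp u p μ rt a c d0 δ wm I l0 cm rm ξ K1 dd D) {A : Finset ι}
    (hAI : Disjoint A I) (x : ∀ i, V i) {s1 d l : ℕ} (hl : 1 ≤ l)
    (hln : Real.log (4 * I.card) ≤ l) (hd : 4 * s1 * l ≤ d) (hdd : A.card + d ≤ dd)
    (hd0 : A.card + s1 ≤ d0) {D1 : ℝ} (hD1 : D + A.card * Real.log (1 / wm) ≤ D1)
    {Q : ℝ} (hQ : 2 * (ξ⁻¹ * H956.KL d D1 (Real.exp cm * rm) + K1) ≤ Q)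
    {S : Finset ι} (hS : S ⊆ I) {e : ℕ} (hSe : S.card + e ≤ s1) (v : ∀ i, V i) :
    WW p (gp (gr (gp (gdw p μ) A x) I) S v) e
      ≤ (Kp a c A * (Real.exp cm * rm / ξ) ^ S.card) ^ 2 * Q ^ e := by
  have h1 := H.li hAI x hl hln hd hdd hd0 hD1 hS hSe v
  have hK0 : 0 ≤ H956.KL d D1 (Real.exp cm * rm) := by unfold H956.KL; positivity
  have hK1 : 0 ≤ K1 :=
    (sum_nonneg fun i _ => H565.rho_nonneg H.data.ref.w_nonneg i).trans H.lev1
  have hξ := H.xi_pos
  have hrm := H.rm_one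
  have hb : 0 ≤ Real.exp cm * rm / ξ := by
    have := Real.exp_pos cm
    positivity
  have hf : (1 : ℝ) ≤ e.factorial := by exact_mod_cast Nat.one_le_iff_ne_zero.mpr (Nat.factorial_ne_zero e)
  refine h1.trans (mul_le_mul ?_ ?_ (by positivity) (by positivity))
  · refine pow_le_pow_left₀ (by positivity) ?_ 2
    exact mul_le_mul_of_nonneg_right (exp_le_Kp A) (by positivity)
  · refine (div_le_self (by positivity) hf).trans (pow_le_pow_left₀ (by positivity) hQ e)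

/-- **(INJ)**, the form of Theorem H -/
theorem H2Hyp.INJ (H : H2Hyp u p μ rt a c d0 δ wm I l0 cm rm ξ K1 dd D) {A : Finset ι}
    (x : ∀ i, V i) {e : ℕ} (hd0 : A.card + e ≤ d0) {R : ℝ} (hR : 4 * Real.exp cm / l0 ≤ R)
    {S : Finset ι} (hS : S ⊆ I) (hSe : S.card ≤ e) (v : ∀ i, V i) (f : ∀ i, V i → ℂ)
    (hf : ∑ i, ∑ b, p i b * ‖f i b‖ ^ 2 ≤ 1) :
    ‖∑ E ∈ powersetCard (e - S.card) (I \ S), ∑ y, (Ab.pw p y : ℂ) *
      ((hh (gp (gdw p μ) A x) (S ∪ E) (ov S v y) : ℂ) * ∏ i ∈ E, f i (y i))‖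
      ≤ Kp a c A * R ^ e := by
  have hcard : A.card + S.card + (e - S.card) ≤ d0 := by omega
  have h1 := H104.inj_I (A := A) H.data H.l0_pos H.l0_one H.cm_nonneg H.rate H.cost x hS v
    (e - S.card) hcard f hf
  refine h1.trans ?_
  have h2 : S.card + (e - S.card) = e := by omega
  rw [h2]
  have hl := H.l0_pos
  exact mul_le_mul_of_nonneg_left (pow_le_pow_left₀ (by positivity) hR e) (Kp_pos A).le

end Vale.Agent.P042.H685
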