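import Vale.Agent.P042.H685.H2Thm

/-! The hypotheses of Theorem H at the lazy own marginals, from the energy increment inequality
relative to the uniform reference. -/

set_option linter.unusedSectionVars false
set_option linter.unusedDecidableInType false

namespace Vale.Agent.P042.H685

open Finset Vale.Agent.P042.H779 Vale.Agent.P042.H779.Ab
open Vale.Agent.P042.H104 (lz)

variable {ι : Type*} [Fintype ι] [DecidableEq ι] {V : ι → Type*} [∀ i, Fintype (V i)]
  [∀ i, DecidableEq (V i)] {u : ∀ i, V i → ℝ} {μ : (∀ i, V i) → ℝ}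
  {rt : ι → ℝ} {a : ℝ} {c : ι → ℝ} {d0 : ℕ} {δ wm : ℝ}

lemma marg_single (i : ι) (x : ∀ i, V i) : marg μ {i} x = m1 μ i (x i) := by
  unfold marg m1
  refine sum_congr rfl fun y _ => ?_
  simp only [mem_singleton, forall_eq]

lemma delta_le_one (Dt : H104.Data u μ rt a c d0 δ wm) : δ ≤ 1 := by
  have hk : (0 : ℝ) ≤ (Fintype.card ι : ℝ) := Nat.cast_nonneg _
  have h1 := Dt.small
  have h2 : wm ^ d0 ≤ 1 := pow_le_one₀ Dt.wm_pos.le Dt.wm_le
  have h3 : (1 : ℝ) ≤ ((Fintype.card ι + 1 : ℕ) : ℝ) * (2 * Fintype.card ι + 1) ^ d0 := by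
    have h4 : (1 : ℝ) ≤ (2 * (Fintype.card ι : ℝ) + 1) ^ d0 := one_le_pow₀ (by linarith)
    have h5 : (1 : ℝ) ≤ ((Fintype.card ι + 1 : ℕ) : ℝ) := by push_cast; linarith
    nlinarith
  have := Dt.δ_pos
  nlinarith

/-- one-site densities -/
lemma m1_le (Dt : H104.Data u μ rt a c d0 δ wm) (hu : ∀ i b, 0 < u i b) (hd0 : 1 ≤ d0) (i : ι)
    (b : V i) : m1 μ i b ≤ Real.exp (a + c i) * u i b := by
  have hne : Nonempty (∀ i, V i) := by
    by_contra h
    rw [not_nonempty_iff] at h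
    have := Dt.ref.prob.sum_eq
    simp at this
  obtain ⟨x0⟩ := hne
  have h := gdw_le_cost' Dt (Q := {i}) (by simpa using hd0) (Function.update x0 i b)
  unfold gdw at h
  rw [marg_single, prod_singleton, sum_singleton, Function.update_self,
    div_le_iff₀ (hu i b)] at h
  exact h

/-- one coordinate: the distance of the lazy marginal from the uniform one -/
lemma rho_lz_le (Dt : H104.Data u μ rt a c d0 δ wm) (hu : ∀ i b, 0 < u i b) (i : ι) :
    H565.rho u (lz u μ) i ≤ ∑ b, u i b * phi (m1 μ i b / u i b) := by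
  unfold H565.rho
  refine sum_le_sum fun b _ => ?_
  have hub := hu i b
  have hm := m1_nonneg Dt.ref.prob i b
  obtain ⟨r, hr⟩ : ∃ r, r = m1 μ i b / u i b := ⟨_, rfl⟩
  have hr0 : 0 ≤ r := by rw [hr]; positivity
  have hm1 : m1 μ i b = r * u i b := by rw [hr]; field_simp
  rw [← hr]
  have hp : lz u μ i b = u i b * ((r + 1) / 2) := by
    unfold H104.lz; rw [hm1]; ring
  have hr1 : 0 < r + 1 := by linarith
  have e1 : lz u μ i b * (u i b / lz u μ i b - 1) ^ 2 = u i b * ((r - 1) ^ 2 / (2 * (r + 1))) := by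
    rw [hp]; field_simp; ring
  rw [e1]
  refine mul_le_mul_of_nonneg_left ?_ hub.le
  rw [div_le_iff₀ (by positivity)]
  have hφ := phi_nonneg hr0
  rcases le_total 1 r with h | h
  · have := sq_le_phi hr0 h le_rfl
    nlinarith
  · have := sq_le_phi hr0 le_rfl h
    nlinarith

/-- **The hypotheses of Theorem H at the lazy own marginals.** -/
theorem H2Hyp.lazy (Dt : H104.Data u μ rt a c d0 δ wm)
    (hsmall : ((Fintype.card ι + 1 : ℕ) : ℝ) * (2 * Fintype.card ι + 1) ^ d0 * δ ≤ (wm / 2) ^ d0)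
    (hu : ∀ i b, 0 < u i b) (hd0 : 1 ≤ d0) {I : Finset ι} {l0 cm : ℝ} (hl0 : 0 < l0)
    (hl1 : l0 ≤ 1) (hrate : ∀ i ∈ I, l0 ≤ rt i) (hcm : 0 ≤ cm) (hc : ∀ i ∈ I, c i ≤ cm)
    {dd : ℕ} {D : ℝ} (hDC : DCdI I u μ dd D) (hD : 0 ≤ D) :
    H2Hyp u (lz u μ) μ (fun i => rt i / 2) (2 * a) (fun i => c i + Real.log 2) d0 δ (wm / 2) I
      (l0 / 2) (cm + Real.log 2) (Real.exp (a + cm)) (1 / 2) (a / l0) dd D where
  data := H104.Data.lazy Dt hsmall
  u_pos := hu
  u_sum := Dt.ref.w_sum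
  up := fun i hi b => by
    have h1 := m1_le Dt hu hd0 i b
    have h2 : Real.exp (a + c i) ≤ Real.exp (a + cm) :=
      Real.exp_le_exp.mpr (by have := hc i hi; linarith)
    have h3 : 1 ≤ Real.exp (a + cm) := Real.one_le_exp (by have := Dt.a_nonneg; linarith)
    have hub := hu i b
    unfold H104.lz
    nlinarith
  rm_one := Real.one_le_exp (by have := Dt.a_nonneg; linarith)
  lo := fun i _ b => Or.inr (by
    unfold H104.lz
    have := m1_nonneg Dt.ref.prob i b
    linarith)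
  xi_pos := by norm_num
  xi_one := by norm_num
  lev1 := by
    have h1 := H104.own_energy Dt.ref Dt.δ_pos (delta_le_one Dt) (ok := fun Q => Q.card ≤ d0)
      (by simp) Dt.eic
    rw [sum_empty, add_zero] at h1
    have hpos : ∀ i, 0 ≤ ∑ b, u i b * phi (m1 μ i b / u i b) := fun i =>
      sum_nonneg fun b _ => mul_nonneg (hu i b).le
        (phi_nonneg (div_nonneg (m1_nonneg Dt.ref.prob i b) (hu i b).le))
    rw [le_div_iff₀ hl0]
    calc (∑ i ∈ I, H565.rho u (lz u μ) i) * l0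
        ≤ (∑ i ∈ I, ∑ b, u i b * phi (m1 μ i b / u i b)) * l0 :=
          mul_le_mul_of_nonneg_right (sum_le_sum fun i _ => rho_lz_le Dt hu i) hl0.le
      _ = ∑ i ∈ I, l0 * ∑ b, u i b * phi (m1 μ i b / u i b) := by
          rw [sum_mul]; exact sum_congr rfl fun i _ => mul_comm _ _
      _ ≤ ∑ i ∈ I, rt i * ∑ b, u i b * phi (m1 μ i b / u i b) :=
          sum_le_sum fun i hi => mul_le_mul_of_nonneg_right (hrate i hi) (hpos i)
      _ ≤ ∑ i, rt i * ∑ b, u i b * phi (m1 μ i b / u i b) :=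
          sum_le_sum_of_subset_of_nonneg (subset_univ I) fun i _ _ =>
            mul_nonneg (Dt.lam_nonneg i) (hpos i)
      _ ≤ a := h1
  l0_pos := by positivity
  l0_one := by linarith
  rate := fun i hi => by have := hrate i hi; linarith
  cm_nonneg := add_nonneg hcm (Real.log_nonneg (by norm_num))
  cost := fun i hi => by have := hc i hi; linarith
  dc := hDC
  D_nonneg := hD

end Vale.Agent.P042.H685
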