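import Vale.Agent.P042.H685.Pin
import Vale.Agent.P042.H956.LiMain
import Vale.Agent.P042.H565.OwnC

/-! Change of reference for the level inequality of a pinned measure. -/

set_option linter.unusedSectionVars false
set_option linter.unusedDecidableInType false

namespace Vale.Agent.P042.H685

open Finset Vale.Agent.P042.H779.Ab
open Vale.Agent.P042.H779 (marg)
open Vale.Agent.P042.H482 (hc nh)
open Vale.Agent.P042.H956 (pin)

variable {ι : Type*} [Fintype ι] [DecidableEq ι] {V : ι → Type*} [∀ i, Fintype (V i)]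
  [∀ i, DecidableEq (V i)] {w u lam : ∀ i, V i → ℝ} {ρ : (∀ i, V i) → ℝ}

lemma marg_smul (c : ℝ) (ρ : (∀ i, V i) → ℝ) (C : Finset ι) (x : ∀ i, V i) :
    marg (fun y => c * ρ y) C x = c * marg ρ C x := by
  unfold marg
  rw [mul_sum]
  refine sum_congr rfl fun y _ => ?_
  split_ifs
  · rfl
  · rw [mul_zero]

lemma hc_smul (c : ℝ) (ρ : (∀ i, V i) → ℝ) (B : Finset ι) (x : ∀ i, V i) :
    hc (gdw w (fun y => c * ρ y)) B x = c * hc (gdw w ρ) B x := by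
  unfold hc gdw
  rw [mul_sum]
  refine sum_congr rfl fun C _ => ?_
  rw [marg_smul]; ring

lemma nh_smul (c : ℝ) (ρ : (∀ i, V i) → ℝ) (B : Finset ι) :
    nh w (gdw w (fun y => c * ρ y)) B = c ^ 2 * nh w (gdw w ρ) B := by
  unfold nh
  rw [mul_sum]
  refine sum_congr rfl fun x _ => ?_
  rw [hc_smul]; ring

lemma W_smul (c : ℝ) (ρ : (∀ i, V i) → ℝ) (U : Finset ι) (e : ℕ) :
    H956.W w (fun y => c * ρ y) U e = c ^ 2 * H956.W w ρ U e := by
  unfold H956.W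
  rw [mul_sum]
  exact sum_congr rfl fun B _ => nh_smul c ρ B

lemma nP_empty (ρ : (∀ i, V i) → ℝ) (y : ∀ i, V i) (E : Finset ι) :
    H565.nP w ρ ∅ y E = nh w (gdw w ρ) E := by
  unfold H565.nP nh
  refine sum_congr rfl fun x _ => ?_
  have : H565.hp w ρ ∅ E ((∅ : Finset ι).piecewise y x) = hc (gdw w ρ) E x := by
    unfold H565.hp hc
    refine sum_congr rfl fun C _ => ?_
    rw [empty_union, piecewise_empty]
  rw [this]
  rfl

/-- Change of reference, no pins. -/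
lemma lvl_change (hu : ∀ i a, 0 < u i a) (hu1 : ∀ i, ∑ a, u i a = 1) (hl0 : ∀ i a, 0 ≤ lam i a)
    (hl1 : ∀ i, ∑ a, lam i a = 1) {ξ : ℝ} (hξ : 0 < ξ) {U : Finset ι}
    (hat : ∀ i ∈ U, ∀ a, lam i a = 0 ∨ ξ * u i a ≤ lam i a) {l : ℕ} {c K K1 : ℝ}
    (hU : ∀ e ≤ l, H956.W u ρ U e ≤ c * (K ^ e / e.factorial))
    (hK1 : ∑ i ∈ U, H565.rho u lam i ≤ K1) [Nonempty (∀ i, V i)] :
    H956.W lam ρ U l ≤ c * ((2 * (ξ⁻¹ * K + K1)) ^ l / l.factorial) := by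
  obtain ⟨y⟩ := ‹Nonempty (∀ i, V i)›
  have h := H565.own_level (μ := ρ) hu hu1 hl0 hl1 hξ (A := ∅) (VV := U) (disjoint_empty_left U)
    hat y (d := l) (c := c) (K := K) (K1 := K1) (by
      intro e he
      simp only [nP_empty]
      refine (hU e he).trans (le_of_eq ?_)
      ring) hK1
  simp only [nP_empty, prod_empty, one_pow, one_mul] at h
  refine h.trans (le_of_eq ?_)
  ring

lemma pin_change (hu : ∀ i a, 0 < u i a) (ρ : (∀ i, V i) → ℝ) (S : Finset ι) (v : ∀ i, V i) :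
    pin lam ρ S v = fun y => (∏ i ∈ S, u i (v i) / lam i (v i)) * pin u ρ S v y := by
  funext y
  unfold H956.pin
  split_ifs
  · rw [prod_div_distrib]
    have : (∏ i ∈ S, u i (v i)) ≠ 0 := (prod_pos fun i _ => hu i _).ne'
    field_simp
  · rw [mul_zero]

/-- **Change of reference, pinned measures.** -/
theorem lvl_pin (hu : ∀ i a, 0 < u i a) (hu1 : ∀ i, ∑ a, u i a = 1) (hl0 : ∀ i a, 0 ≤ lam i a)
    (hl1 : ∀ i, ∑ a, lam i a = 1) {ξ : ℝ} (hξ : 0 < ξ) {I : Finset ι}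
    (hat : ∀ i ∈ I, ∀ a, lam i a = 0 ∨ ξ * u i a ≤ lam i a) {s1 : ℕ} {A0 M K K1 : ℝ}
    (hli : ∀ S ⊆ I, ∀ e, S.card + e ≤ s1 → ∀ b,
      H956.W u (pin u ρ S b) (I \ S) e ≤ (A0 * M ^ S.card) ^ 2 * (K ^ e / e.factorial))
    (hK1 : ∑ i ∈ I, H565.rho u lam i ≤ K1) {S : Finset ι} (hS : S ⊆ I) {l : ℕ}
    (hl : S.card + l ≤ s1) (v : ∀ i, V i) :
    H956.W lam (pin lam ρ S v) (I \ S) l
      ≤ (A0 * (M / ξ) ^ S.card) ^ 2 * ((2 * (ξ⁻¹ * K + K1)) ^ l / l.factorial) := by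
  have : Nonempty (∀ i, V i) := ⟨v⟩
  rw [pin_change hu, W_smul]
  have hrho0 : ∀ i, 0 ≤ H565.rho u lam i := fun i => H565.rho_nonneg hl0 i
  have h1 := lvl_change (ρ := pin u ρ S v) hu hu1 hl0 hl1 hξ (U := I \ S)
    (fun i hi => hat i (mem_sdiff.mp hi).1) (l := l) (c := (A0 * M ^ S.card) ^ 2) (K := K)
    (K1 := K1) (fun e he => hli S hS e (by omega) v)
    ((sum_le_sum_of_subset_of_nonneg sdiff_subset fun i _ _ => hrho0 i).trans hK1)
  have hK10 : 0 ≤ K1 := (sum_nonneg fun i _ => hrho0 i).trans hK1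
  have h2 : (∏ i ∈ S, u i (v i) / lam i (v i)) ^ 2 ≤ ((ξ⁻¹) ^ S.card) ^ 2 := by
    refine pow_le_pow_left₀ (prod_nonneg fun i _ => div_nonneg (hu i _).le (hl0 i _)) ?_ 2
    rw [← prod_const]
    refine prod_le_prod (fun i _ => div_nonneg (hu i _).le (hl0 i _)) fun i hi => ?_
    rcases hat i (hS hi) (v i) with h0 | h0
    · rw [h0, div_zero]; positivity
    · have hlp : 0 < lam i (v i) := lt_of_lt_of_le (mul_pos hξ (hu i _)) h0
      rw [div_le_iff₀ hlp, inv_mul_eq_div, le_div_iff₀ hξ]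
      linarith
  have h3 : 0 ≤ H956.W lam (pin u ρ S v) (I \ S) l := H956.W_nonneg hl0 _ _
  calc (∏ i ∈ S, u i (v i) / lam i (v i)) ^ 2 * H956.W lam (pin u ρ S v) (I \ S) l
      ≤ ((ξ⁻¹) ^ S.card) ^ 2 * ((A0 * M ^ S.card) ^ 2
          * ((2 * (ξ⁻¹ * K + K1)) ^ l / l.factorial)) :=
        mul_le_mul h2 h1 h3 (by positivity)
    _ = _ := by
        rw [div_eq_mul_inv M ξ, mul_pow M]
        ring

end Vale.Agent.P042.H685
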