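import Vale.Agent.P042.H685.Smooth

/-! The law's own level inequality turns the energy of level `e` into a moment of order `2q` in
the product space (T1), for an arbitrary nonnegative measure and arbitrary reference weights, and
for every noise level `t`. -/

set_option linter.unusedSectionVars false
set_option linter.unusedDecidableInType false

namespace Vale.Agent.P042.H685

open Finset Vale.Agent.P042.H779 Vale.Agent.P042.H779.Ab

variable {ι : Type*} [Fintype ι] [DecidableEq ι] {V : ι → Type*} [∀ i, Fintype (V i)]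
  [∀ i, DecidableEq (V i)] {w : ∀ i, V i → ℝ} {g : Finset ι → (∀ i, V i) → ℝ}
  {μ : (∀ i, V i) → ℝ}

/-- Densities of the marginals of a nonnegative measure of mass `m`, relative to weights `w`. -/
structure PFam (w : ∀ i, V i → ℝ) (g : Finset ι → (∀ i, V i) → ℝ) (m : ℝ) : Prop where
  w_nonneg : ∀ i a, 0 ≤ w i a
  w_sum : ∀ i, ∑ a, w i a = 1
  g_nonneg : ∀ C x, 0 ≤ g C x
  g_empty : ∀ x, g ∅ x = m
  loc : ∀ C, Loc C (g C)
  avg : ∀ (C : Finset ι) (i : ι), i ∉ C → ∀ x,
    ∑ a, w i a * g (insert i C) (Function.update x i a) = g C x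

lemma PFam.hh_deg {m : ℝ} (F : PFam w g m) {j : ι} {B : Finset ι} (hj : j ∈ B) :
    Deg w j (hh g B) := by
  intro x
  obtain ⟨B', hB', rfl⟩ : ∃ B', j ∉ B' ∧ B = insert j B' :=
    ⟨B.erase j, notMem_erase j B, (insert_erase hj).symm⟩
  simp_rw [hh_insert g hB', mul_sum]
  rw [sum_comm]
  refine sum_eq_zero fun C hC => ?_
  have hjC : j ∉ C := fun hc => hB' (mem_powerset.mp hC hc)
  have h1 : ∀ a, w j a * ((-1) ^ (B'.card - C.card) *
      (g (insert j C) (Function.update x j a) - g C (Function.update x j a)))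
      = (-1) ^ (B'.card - C.card) * (w j a * g (insert j C) (Function.update x j a))
        - (-1) ^ (B'.card - C.card) * g C x * w j a := by
    intro a
    rw [(F.loc C).indep hjC x a]
    ring
  rw [sum_congr rfl fun a _ => h1 a, sum_sub_distrib, ← mul_sum, F.avg C j hjC,
    ← mul_sum, F.w_sum]
  ring

lemma PFam.dfam {m : ℝ} (F : PFam w g m) : DFam w (hh g) where
  w_nonneg := F.w_nonneg
  w_sum := F.w_sum
  loc := hh_loc F.loc
  deg := fun _ _ hj => F.hh_deg hj

lemma PFam.mass_nonneg {m : ℝ} (F : PFam w g m) [Nonempty (∀ i, V i)] : 0 ≤ m := by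
  obtain ⟨x⟩ := ‹Nonempty (∀ i, V i)›
  rw [← F.g_empty x]
  exact F.g_nonneg ∅ x

lemma DFam.pw_sum {h : Finset ι → (∀ i, V i) → ℝ} (F : DFam w h) : ∑ x, pw w x = 1 := by
  unfold Ab.pw
  rw [← Fintype.piFinset_univ, ← Finset.prod_univ_sum]
  simp [F.w_sum]

lemma DFam.mean_zero {h : Finset ι → (∀ i, V i) → ℝ} (F : DFam w h) {B : Finset ι}
    (hB : B.Nonempty) : ∑ x, pw w x * h B x = 0 := by
  obtain ⟨j, hj⟩ := hB
  have := deg_kill (H := fun _ => 1) F.w_sum (F.deg B j hj) (fun _ _ => rfl)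
  simpa using this

/-- total mass of the noised measure -/
lemma PFam.mass {m : ℝ} (F : PFam w g m) (t : ι → ℝ) :
    ∑ x, pw w x * ∑ B, (∏ i ∈ B, t i) * hh g B x = m := by
  have h1 : ∀ x, pw w x * ∑ B, (∏ i ∈ B, t i) * hh g B x
      = ∑ B, (∏ i ∈ B, t i) * (pw w x * hh g B x) := by
    intro x
    rw [mul_sum]
    exact sum_congr rfl fun B _ => by ring
  rw [sum_congr rfl fun x _ => h1 x, sum_comm, sum_eq_single ∅]
  · rw [← mul_sum, prod_empty, one_mul]
    have h2 : ∀ x, hh g ∅ x = m := fun x => by simp [hh, F.g_empty]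
    rw [sum_congr rfl fun x _ => by rw [h2 x], ← sum_mul, F.dfam.pw_sum, one_mul]
  · intro B _ hB
    rw [← mul_sum, F.dfam.mean_zero (nonempty_iff_ne_empty.mpr hB), mul_zero]
  · intro h; exact absurd (mem_univ _) h

lemma PFam.noise_nonneg {m : ℝ} (F : PFam w g m) {t : ι → ℝ} (h0 : ∀ i, 0 ≤ t i)
    (h1 : ∀ i, t i ≤ 1) (x : ∀ i, V i) : 0 ≤ ∑ B, (∏ i ∈ B, t i) * hh g B x := by
  rw [sum_hh_eq]
  refine sum_nonneg fun C _ => mul_nonneg (mul_nonneg (prod_nonneg fun i _ => h0 i)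
    (prod_nonneg fun i _ => ?_)) (F.g_nonneg C x)
  linarith [h1 i]

/-- Moment inequality for a density of mass `m`. -/
theorem DFam.moment' {h : Finset ι → (∀ i, V i) → ℝ} (F : DFam w h) (c : Finset ι → ℝ)
    (hf : ∀ x, 0 ≤ ∑ B, c B * h B x) {m : ℝ}
    (hf1 : ∑ x, pw w x * ∑ B, c B * h B x = m) {d q : ℕ} (hq : Even q) (hq0 : q ≠ 0)
    {Ψ : (∀ i, V i) → ℝ} (hΨ : Ψ ∈ DL V d) :
    (∑ x, pw w x * ((∑ B, c B * h B x) * Ψ x)) ^ (2 * q)
      ≤ m ^ (2 * (q - 1)) * (∑ B with B.card ≤ q * d, c B ^ 2 * nr w h B)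
        * ∑ x, pw w x * Ψ x ^ (2 * q) := by
  have hm : 0 ≤ m := by
    rw [← hf1]; exact sum_nonneg fun x _ => mul_nonneg (F.pw_nonneg x) (hf x)
  obtain ⟨S, hS⟩ : ∃ S, S = ∑ B with B.card ≤ q * d, c B ^ 2 * nr w h B := ⟨_, rfl⟩
  obtain ⟨M, hM⟩ : ∃ M, M = ∑ x, pw w x * Ψ x ^ (2 * q) := ⟨_, rfl⟩
  have hS0 : 0 ≤ S := by
    rw [hS]; exact sum_nonneg fun B _ => mul_nonneg (sq_nonneg _) (F.nr_nonneg B)
  have hM0 : 0 ≤ M := by
    rw [hM]
    exact sum_nonneg fun x _ => mul_nonneg (F.pw_nonneg x) ((even_two_mul q).pow_nonneg _)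
  rw [← hS, ← hM]
  have key : (∑ x, pw w x * ((∑ B, c B * h B x) * Ψ x)) ^ q ≤ m ^ (q - 1) * (√S * √M) := by
    rcases hm.eq_or_lt with h0 | h0
    · -- mass zero
      have h2 : ∀ x, pw w x * ∑ B, c B * h B x = 0 := by
        have h3 := (sum_eq_zero_iff_of_nonneg (s := univ)
          (fun x _ => mul_nonneg (F.pw_nonneg x) (hf x))).mp (hf1.trans h0.symm)
        exact fun x => h3 x (mem_univ x)
      have h4 : ∑ x, pw w x * ((∑ B, c B * h B x) * Ψ x) = 0 := by
        refine sum_eq_zero fun x _ => ?_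
        rw [← mul_assoc, h2 x, zero_mul]
      rw [h4, zero_pow hq0]
      positivity
    · have h1 : (∑ x, ((pw w x * ∑ B, c B * h B x) / m) * Ψ x) ^ q
          ≤ ∑ x, ((pw w x * ∑ B, c B * h B x) / m) * Ψ x ^ q := by
        refine Real.pow_arith_mean_le_arith_mean_pow_of_even univ _ _
          (fun x _ => div_nonneg (mul_nonneg (F.pw_nonneg x) (hf x)) hm) ?_ hq
        rw [← sum_div, hf1, div_self h0.ne']
      have h2 := F.mean_le c (DL_pow hΨ q)
      have h3 : ∑ x, pw w x * (Ψ ^ q) x ^ 2 = M := by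
        rw [hM]
        refine sum_congr rfl fun x _ => ?_
        rw [Pi.pow_apply, ← pow_mul, mul_comm q 2]
      rw [h3, ← hS] at h2
      have h4 : ∑ x, pw w x * ((∑ B, c B * h B x) * Ψ x)
          = m * ∑ x, ((pw w x * ∑ B, c B * h B x) / m) * Ψ x := by
        rw [mul_sum]
        refine sum_congr rfl fun x _ => ?_
        field_simp
      have h5 : ∑ x, ((pw w x * ∑ B, c B * h B x) / m) * Ψ x ^ q
          = m⁻¹ * ∑ x, pw w x * ((∑ B, c B * h B x) * (Ψ ^ q) x) := by
        rw [mul_sum]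
        refine sum_congr rfl fun x _ => ?_
        rw [Pi.pow_apply]
        field_simp
      rw [h4, mul_pow]
      have h6 : m ^ q = m ^ (q - 1) * m := by
        rw [← pow_succ, Nat.sub_add_cancel (Nat.one_le_iff_ne_zero.mpr hq0)]
      calc m ^ q * (∑ x, ((pw w x * ∑ B, c B * h B x) / m) * Ψ x) ^ q
          ≤ m ^ q * (m⁻¹ * (√S * √M)) := by
            refine mul_le_mul_of_nonneg_left ?_ (by positivity)
            rw [h5] at h1
            exact h1.trans (mul_le_mul_of_nonneg_left h2 (by positivity))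
        _ = m ^ (q - 1) * (√S * √M) := by
            rw [h6]; field_simp
  have hsq : (∑ x, pw w x * ((∑ B, c B * h B x) * Ψ x)) ^ (2 * q)
      = ((∑ x, pw w x * ((∑ B, c B * h B x) * Ψ x)) ^ q) ^ 2 := by
    rw [← pow_mul, mul_comm q 2]
  have h0 : 0 ≤ (∑ x, pw w x * ((∑ B, c B * h B x) * Ψ x)) ^ q := hq.pow_nonneg _
  rw [hsq]
  refine (pow_le_pow_left₀ h0 key 2).trans (le_of_eq ?_)
  rw [mul_pow, mul_pow, Real.sq_sqrt hS0, Real.sq_sqrt hM0, ← pow_mul, mul_comm (q - 1) 2]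
  ring

/-- energy of the level `l` -/
noncomputable def WW (w : ∀ i, V i → ℝ) (g : Finset ι → (∀ i, V i) → ℝ) (l : ℕ) : ℝ :=
  ∑ B with B.card = l, nr w (hh g) B

lemma sum_card_le {α : Type*} [Fintype α] [DecidableEq α] (n : ℕ) (f : Finset α → ℝ) :
    ∑ B with B.card ≤ n, f B = ∑ l ∈ range (n + 1), ∑ B with B.card = l, f B := by
  have h1 : (univ.filter fun B : Finset α => B.card ≤ n)
      = (range (n + 1)).biUnion fun l => univ.filter fun B : Finset α => B.card = l := by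
    ext B
    simp only [mem_filter, mem_univ, true_and, mem_biUnion, mem_range, exists_eq_right']
    omega
  rw [h1, sum_biUnion]
  intro a _ b _ hab
  rw [Function.onFun, disjoint_left]
  intro B hB hB'
  exact hab ((mem_filter.mp hB).2.symm.trans (mem_filter.mp hB').2)

/-- **(T1), general rates, general families of sets of size `e`.** -/
theorem PFam.T1t {m : ℝ} (F : PFam w g m) {t : ι → ℝ} (ht0 : ∀ i, 0 ≤ t i) (ht1 : ∀ i, t i ≤ 1)
    {q e : ℕ} (hq : Even q) (hq0 : q ≠ 0) (𝓑 : Finset (Finset ι)) (h𝓑 : ∀ B ∈ 𝓑, B.card ≤ e)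
    (b : Finset ι → ℝ) :
    (∑ B ∈ 𝓑, (∏ i ∈ B, t i) * b B * nr w (hh g) B) ^ (2 * q)
      ≤ m ^ (2 * (q - 1))
        * (∑ l ∈ range (q * e + 1), ∑ B with B.card = l, (∏ i ∈ B, t i) ^ 2 * nr w (hh g) B)
        * ∑ x, pw w x * (∑ B ∈ 𝓑, b B * hh g B x) ^ (2 * q) := by
  have hΨ : (fun x => ∑ B ∈ 𝓑, b B * hh g B x) ∈ DL V e := by
    have : (fun x => ∑ B ∈ 𝓑, b B * hh g B x) = ∑ B ∈ 𝓑, b B • hh g B := by
      funext x
      rw [Finset.sum_apply]
      exact sum_congr rfl fun B _ => by simp [Pi.smul_apply]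
    rw [this]
    refine Submodule.sum_mem _ fun B hB => Submodule.smul_mem _ _ ?_
    exact Loc.memDL (hh_loc F.loc B) (h𝓑 B hB)
  have h1 := F.dfam.moment' (fun B => ∏ i ∈ B, t i) (F.noise_nonneg ht0 ht1) (F.mass t) hq hq0 hΨ
  rw [F.dfam.pair (fun B => ∏ i ∈ B, t i) 𝓑 b, sum_card_le] at h1
  exact h1

/-- **(T1)**: the energy of level `e` is at most a moment of order `2q` in the product space,
with the energies of the levels `≤ q e` entering only to the power `1/(2q)`. -/
theorem PFam.T1 {m : ℝ} (F : PFam w g m) {q : ℕ} (hq : Even q) (hq0 : q ≠ 0) (e : ℕ) :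
    WW w g e ^ (2 * q) ≤ m ^ (2 * (q - 1)) * (∑ l ∈ range (q * e + 1), WW w g l)
      * ∑ x, pw w x * (∑ B with B.card = e, hh g B x) ^ (2 * q) := by
  have h := F.T1t (t := fun _ => 1) (fun _ => zero_le_one) (fun _ => le_rfl) hq hq0
    (e := e) (univ.filter fun B : Finset ι => B.card = e) (fun B hB => (mem_filter.mp hB).2.le)
    (fun _ => 1)
  simpa [WW] using h

/-- **(T1) with smoothing** by a uniform rate `τ`. -/
theorem PFam.T1τ {m : ℝ} (F : PFam w g m) {q : ℕ} (hq : Even q) (hq0 : q ≠ 0) (e : ℕ) {τ : ℝ}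
    (h0 : 0 ≤ τ) (h1 : τ ≤ 1) :
    (τ ^ e * WW w g e) ^ (2 * q)
      ≤ m ^ (2 * (q - 1)) * (∑ l ∈ range (q * e + 1), τ ^ (2 * l) * WW w g l)
      * ∑ x, pw w x * (∑ B with B.card = e, hh g B x) ^ (2 * q) := by
  have h := F.T1t (t := fun _ => τ) (fun _ => h0) (fun _ => h1) hq hq0
    (e := e) (univ.filter fun B : Finset ι => B.card = e) (fun B hB => (mem_filter.mp hB).2.le)
    (fun _ => 1)
  simp only [prod_const, mul_one, one_mul] at h
  have h2 : ∑ B with B.card = e, τ ^ B.card * nr w (hh g) B = τ ^ e * WW w g e := by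
    unfold WW
    rw [mul_sum]
    exact sum_congr rfl fun B hB => by rw [(mem_filter.mp hB).2]
  have h3 : ∀ l ∈ range (q * e + 1), ∑ B with B.card = l, (τ ^ B.card) ^ 2 * nr w (hh g) B
      = τ ^ (2 * l) * WW w g l := by
    intro l _
    unfold WW
    rw [mul_sum]
    refine sum_congr rfl fun B hB => ?_
    rw [(mem_filter.mp hB).2, ← pow_mul, mul_comm l 2]
  rw [h2, sum_congr rfl h3] at h
  exact h

/-! ### Instances -/

/-- densities of a nonnegative measure relative to positive weights -/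
theorem pfam_meas (hw0 : ∀ i a, 0 < w i a) (hw1 : ∀ i, ∑ a, w i a = 1) (hμ : ∀ x, 0 ≤ μ x) :
    PFam w (gdw w μ) (∑ x, μ x) where
  w_nonneg := fun i a => (hw0 i a).le
  w_sum := hw1
  g_nonneg := fun C x => by
    refine div_nonneg ?_ (prod_nonneg fun i _ => (hw0 i _).le)
    unfold marg
    refine sum_nonneg fun y _ => ?_
    split_ifs
    · exact hμ y
    · exact le_rfl
  g_empty := fun x => by simp [gdw, marg]
  loc := loc_gdw
  avg := by
    intro R i hi x
    have h1 : ∀ a, w i a * gdw w μ (insert i R) (Function.update x i a)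
        = marg μ (insert i R) (Function.update x i a) / ∏ j ∈ R, w j (x j) := by
      intro a
      unfold gdw
      rw [prod_insert hi]
      have h3 : ∏ j ∈ R, w j (Function.update x i a j) = ∏ j ∈ R, w j (x j) := by
        refine prod_congr rfl fun j hj => ?_
        have : j ≠ i := fun h => hi (h ▸ hj)
        simp [this]
      rw [h3]
      simp only [Function.update_self]
      have h0 := (hw0 i a).ne'
      rw [mul_div_assoc', mul_div_mul_left _ _ h0]
    simp only [h1]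
    rw [← sum_div, marg_insert_sum R hi]
    rfl

/-- densities of a law relative to dominating weights (for instance its own marginals) -/
theorem pfam_ref (H : Ref w μ) : PFam w (gdw w μ) 1 where
  w_nonneg := H.w_nonneg
  w_sum := H.w_sum
  g_nonneg := H.famT.g_nonneg
  g_empty := H.famT.g_empty
  loc := loc_gdw
  avg := fun C i hi x => H.famT.g_avg C i hi trivial x

/-- a law relative to its own marginals -/
theorem pfam_own (h : IsProb μ) : PFam (m1 μ) (gd μ) 1 :=
  pfam_ref ⟨h, m1_nonneg h, m1_sum h, fun _ _ h0 => h0⟩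

end Vale.Agent.P042.H685
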