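import Vale.Agent.P042.H685.H2In

/-! Level one: the two distances of the references, and the level one energy of a law relative to
the uniform reference. -/

set_option linter.unusedSectionVars false
set_option linter.unusedDecidableInType false

namespace Vale.Agent.P042.H685

open Finset Vale.Agent.P042.H779 Vale.Agent.P042.H779.Ab
open Vale.Agent.P042.H482 (hc nh)
open Vale.Agent.P042.H956 (pin famOne)

variable {ι : Type*} [Fintype ι] [DecidableEq ι] {V : ι → Type*} [∀ i, Fintype (V i)]
  [∀ i, DecidableEq (V i)] {u p : ∀ i, V i → ℝ} {μ : (∀ i, V i) → ℝ}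

lemma rho_swap {i : ι} (hu : ∀ b, 0 < u i b) {ξ : ℝ} (hξ : 0 < ξ)
    (hlo : ∀ b, p i b = 0 ∨ ξ * u i b ≤ p i b) :
    H565.rho u p i ≤ ξ⁻¹ * H565.rho p u i := by
  unfold H565.rho
  rw [mul_sum]
  refine sum_le_sum fun b _ => ?_
  have hub := hu b
  rcases hlo b with h | h
  · rw [h, zero_mul]; positivity
  · have hp : 0 < p i b := lt_of_lt_of_le (mul_pos hξ hub) h
    have e1 : p i b * (u i b / p i b - 1) ^ 2 = (u i b - p i b) ^ 2 / p i b := by
      field_simp
    have e2 : ξ⁻¹ * (u i b * (p i b / u i b - 1) ^ 2) = (u i b - p i b) ^ 2 / (ξ * u i b) := by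
      field_simp; ring
    rw [e1, e2]
    exact div_le_div_of_nonneg_left (sq_nonneg _) (mul_pos hξ hub) h

lemma marg_sing (i : ι) (x : ∀ i, V i) : marg μ {i} x = m1 μ i (x i) := by
  unfold marg m1
  refine sum_congr rfl fun y _ => ?_
  simp only [mem_singleton, forall_eq]

/-- level one of a law, one coordinate -/
lemma nh_sing (hu : ∀ i b, 0 < u i b) (hu1 : ∀ i, ∑ b, u i b = 1) (hμ : IsProb μ) (i : ι) :
    nh u (gdw u μ) {i} = H565.rho (m1 μ) u i := by
  have F1 := famOne (fun i a => (hu i a).le) hu1
  unfold nh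
  have h1 : ∀ x : ∀ i, V i, hc (gdw u μ) {i} x = m1 μ i (x i) / u i (x i) - 1 := by
    intro x
    have e : ({i} : Finset ι).powerset = {∅, {i}} := by
      ext s
      simp [Finset.subset_singleton_iff]
    unfold hc
    rw [e, sum_pair (singleton_ne_empty i).symm]
    simp only [card_singleton, card_empty, Nat.sub_zero, pow_one, Nat.sub_self, pow_zero, one_mul]
    have h2 : gdw u μ ∅ x = 1 := by
      unfold gdw
      rw [prod_empty, div_one]
      exact marg_empty hμ x
    have h3 : gdw u μ {i} x = m1 μ i (x i) / u i (x i) := by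
      unfold gdw
      rw [prod_singleton, marg_sing]
    rw [h2, h3]; ring
  simp only [h1]
  rw [pw_avg F1 i]
  have h4 : ∀ x : ∀ i, V i, ∑ a, u i a * (m1 μ i (Function.update x i a i)
      / u i (Function.update x i a i) - 1) ^ 2 = H565.rho (m1 μ) u i := by
    intro x
    unfold H565.rho
    refine sum_congr rfl fun a _ => ?_
    rw [Function.update_self]
  simp only [h4]
  rw [← sum_mul, pw_sum F1, one_mul]

/-- **Level one energy of a law relative to the uniform reference.** -/
theorem lev1_of_dc (hu : ∀ i b, 0 < u i b) (hu1 : ∀ i, ∑ b, u i b = 1) (hμ : IsProb μ)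
    {I : Finset ι} {M D : ℝ} (hM : 1 ≤ M) (hD : 0 ≤ D) (hm : ∀ i ∈ I, ∀ b, m1 μ i b ≤ M * u i b)
    {dd d l : ℕ} (hDC : DCdI I u μ dd D) (hl : 1 ≤ l) (hln : Real.log (4 * I.card) ≤ l)
    (hd : 4 * l ≤ d) (hdd : d ≤ dd) [Nonempty (∀ i, V i)] :
    ∑ i ∈ I, H565.rho (m1 μ) u i ≤ H956.KL d D M := by
  obtain ⟨b0⟩ := ‹Nonempty (∀ i, V i)›
  have h1 := H956.li_num hu hu1 hμ.nonneg I 1 M D le_rfl hM hD 1 d l hl hln (by omega)
    (by
      intro S hS hSc b
      rcases Nat.lt_or_ge S.card 1 with h | h
      · have : S = ∅ := card_eq_zero.mp (by omega)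
        subst this
        rw [H956.pin_empty, card_empty, pow_zero, mul_one]
        exact hμ.sum_eq.le
      · obtain ⟨i, rfl⟩ := card_eq_one.mp (by omega : S.card = 1)
        have hi : i ∈ I := hS (mem_singleton_self i)
        have h2 : ∑ x, pin u μ {i} b x = m1 μ i (b i) / u i (b i) := by
          unfold H956.pin m1
          rw [sum_div]
          refine sum_congr rfl fun y _ => ?_
          simp only [mem_singleton, forall_eq, prod_singleton]
          split_ifs
          · rfl
          · rw [zero_div]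
        rw [h2, card_singleton, pow_one, one_mul, div_le_iff₀ (hu i _)]
        exact hm i hi _)
    (by
      intro S hS hSc b e k he hes hk hke
      have he1 : e = 1 := by omega
      subst he1
      refine hDC S (I \ S) sdiff_subset disjoint_sdiff b _ (fun E => hc_loc E)
        (fun E i hi x => H956.hc_av' hu1 (fun R i hi => H956.gdw_upd R hi)
          (fun R i hi x => H956.gdw_avg hu R hi x) hi x) 1 k (by omega))
    1 ∅ (empty_subset I) (by simp) b0
  rw [H956.pin_empty, card_empty, pow_zero, mul_one, one_pow, one_mul, sdiff_empty, pow_one,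
    Nat.cast_one, div_one] at h1
  refine le_trans (le_of_eq ?_) h1
  unfold H956.W
  rw [powersetCard_one, sum_map]
  refine sum_congr rfl fun i _ => ?_
  exact (nh_sing hu hu1 hμ i).symm

end Vale.Agent.P042.H685
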